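import Vale.Agent.N352.V5.Pg

/-!
# N352, block V5: the extension, without scaling laws for the fields other than `T`
-/

set_option linter.all false

open Filter Topology

namespace Vale.Agent.N352.V5

noncomputable section

universe u v

section energy

open Vale.Agent.P352 Vale.Agent.P352.GF Vale.Agent.P352.BW Vale.Agent.P352.H246
open Vale.Agent.P352.H496 Vale.Agent.P352.H755 Vale.Agent.P352.H15
open Vale.Agent.P352X Vale.Agent.P352L Vale.Agent.P352R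
open E E.Mn F
open T (Cm corm)
open K (Gn)
open UniformSpace (Completion)

variable {D : Type u} [NormedAddCommGroup D] [InnerProductSpace ℂ D]

open Vale.Agent.P352X.EB in
/-- the fields of the extension are sums of components of multiplets -/
theorem mfa0 {c : E.Ctx D} {D' : Submodule ℂ (Completion D)} {P : Theory D'} {G' e L}
    (h : FINp c P G' e L) (hM : MfAll c.Q) (hc : COV0 c.toCf) : MfAll P := fun A a => by
  obtain ⟨m, C, hC, k⟩ := h.gen A a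
  have key : ∀ i, ∃ (r : ℕ) (B : Fin r → Fld D'), (∀ j, ∃ k Φ a, IsMf P k Φ ∧ B j = Φ a) ∧
      ∀ f v, IsTest f → C i f v = ∑ j, B j f v := fun i => by
    rcases hC i with k | ⟨C', a, b⟩
    · refine ⟨1, fun _ => L, fun _ => ⟨EG.rp0, fun _ => L, (0 : Fin 1), ⟨fun _ =>
        P.bose_fld _ h.sca.1, fun a M f v hM hf => ?_⟩, rfl⟩, fun _ _ _ => by simp [k]⟩
      have := h.sca.2.2 1 M 0 f v one_pos hM hf
      rw [Real.one_rpow] at this
      have e : ∀ (a : Fin 1) (w : D'), ((1 : ℝ) : ℂ) • w =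
          ∑ b : Fin 1, (1 : Matrix (Fin 1) (Fin 1) ℂ) b a • w := fun a w => by
        rw [Fin.sum_univ_one, Subsingleton.elim a 0]
        simp
      exact this.trans (e a _)
    · obtain ⟨r, B, p, q⟩ := hM C' a
      choose k Φ j p p' using p
      refine ⟨r, fun i => e (B i), fun i => ⟨k i, fun b => e (Φ i b), j i,
        ⟨fun b => h.ext.fld _ ((p i).1 b), fun b M f v hL hf => ?_⟩, congrArg e (p' i)⟩,
        fun f v hf => (b f v hf).trans (ext_sum h.ext a (fun i => p' i ▸ (p i).1 _) q hf v)⟩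
      exact ext_cov hc h.ext ⟨1, M, 0, one_pos, hL⟩ ((p i).1 b) (p i).1
        (fun g w hg => (p i).2 b M g w hL hg) hf v
  choose r B b1 b2 using key
  let E := (Fintype.equivFin (Σ i, Fin (r i))).symm
  refine ⟨_, fun j => B (E j).1 (E j).2, fun j => b1 _ _, fun f v hf => (k f v).trans ?_⟩
  rw [E.sum_comp fun j => B j.1 j.2 f v, Fintype.sum_sigma]
  exact Finset.sum_congr rfl fun i _ => b2 i f v hf

/-- the data of an extension -/
def Xn0 (Q : Theory D) (Γ : Completion D →L[ℂ] Completion D) (S : Ix → Ix → Fld D) : Prop :=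
  ∃ (M : _) (E : Submodule ℂ (Completion D)) (P : Theory E) (G' : E → E) (e : Fld D → Fld E)
    (L : Fld E), N352.Ext Q Γ M P G' e ∧ (Gn Q P e L ∧ MfAll P) ∧
    P.IsStress (fun m n => e (S m n)) ∧ P.IsScalar L 2 ∧
    ∀ R, P352R.P.IsEnl P R → P352R.P.Gr R G' →
      Cm R G' (fun m n => e (S m n)) (improve (fun m n => e (S m n)) L)

/-- **the local extension** -/
theorem extenE0 (c : Cf D) (hM : MfAll c.Q) (hc : COV0 c) {S : Ix → Ix → Fld D}
    (k : Y.Core2 c S) : Xn0 c.Q c.Γ S := by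
  obtain ⟨x, rfl, rfl, ⟨E, P, G', e, L, h0, cy, cl⟩, Z, z2, z1, z3⟩ := k
  have ⟨h1, h2, h3, h4, h5, h6⟩ := h0
  have mx : ∀ R, IsEnl P R → Pf.Mx R (improve (fun m n => e (x.T m n)) L) := fun R n F w hF => by
    have hv : (R.vac : Completion D) = x.toCf.Om := by rw [n.vac]; exact h1.vac
    have b3 := z3 _ (imp_mem (R := R) (S := fun m n => e (x.T m n)) (L := L) E.subtype Z
      (fun m n' f hf => by
        rw [n.vac, Submodule.subtype_apply,
          h1.agree _ f _ _ (x.Q.bose_fld _ (x.hT.bose m n')) hf cyc_vac h1.vac]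
        exact z2 m n' f hf)
      (fun f hf => by rw [n.vac, Submodule.subtype_apply, h5 f hf]; exact z1 f hf) hF) w
    rw [← hv, Submodule.subtype_apply, ← Submodule.coe_inner, ← Submodule.coe_inner] at b3
    refine b3.congr' (eventually_nhdsWithin_of_forall fun r hr => ?_)
    obtain ⟨p1, p2⟩ := CA.lsc_pos hr
    show inner ℂ _ (Ue _ _ _ _ _) = inner ℂ _ (R.U _ _ _ _)
    rw [← h1.U _ _ _ _ p1 p2, n.U]
    rfl
  have t0 := fun R n => (Br.impr.2 (EB.scal_row _ P _ L h2 h3 h4 R n).1).traceless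
  exact ⟨_, E, P, G', e, L, Pf.ext_of h1 (afw1 P), ⟨⟨cy, h6⟩, mfa0 h0 hM hc⟩, h2, h3,
    fun R n g => corm (Br.gr.1 g) (H746.isStress_enl (Br.enl.1 n) h2)
      (scalar_enl (Br.enl.1 n) h3) (t0 R (Br.enl.1 n)) (mx R (Br.enl.1 n))⟩

end energy

open P352.GF P352R P352R.P F
open T (Cm)
open UniformSpace (Completion)

variable {D : Type u} [NormedAddCommGroup D] [InnerProductSpace ℂ D] {Q : Theory D} {G : D → D}
  {T : Ix → Ix → Fld D} {Γ : Completion D →L[ℂ] Completion D} {h : Ok Q}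

theorem der_iso {E : Type*} [NormedAddCommGroup E] [InnerProductSpace ℂ E] (φ : E →ₗᵢ[ℂ] D)
    {u : ℝ → E} {y : E} : HasDerivAt (fun e => φ (u e)) (φ y) 0 ↔ HasDerivAt u y 0 := by
  rw [hasDerivAt_iff_tendsto_slope, hasDerivAt_iff_tendsto_slope,
    φ.isometry.isEmbedding.tendsto_nhds_iff]
  refine tendsto_congr fun e => ?_
  rw [Function.comp, slope_def_module, slope_def_module, ← map_sub]
  exact (φ.toLinearMap.map_smul_of_tower _ _).symm

theorem rs_cb {X : Fld D} (c : Cb Q X) : Xt (io Q) (rf Q X) X ∧ Cb (rs Q h) (rf Q X) := by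
  obtain ⟨n, z, A, p, q⟩ := c
  have x : Xt (io Q) (rf Q X) X := fun f v hf => rg_of (by
    rw [q f _ hf]
    exact (N352.cy Q).sum_mem fun i _ => (N352.cy Q).smul_mem _ (Cyc.fld v.2 (p i) hf))
  exact ⟨x, n, z, fun i => rf Q (A i), fun i => rs_fld (p i), fun f v hf => (io Q).injective (by
    simp only [x f v hf, q f _ hf, map_sum, map_smul, rf_xt (p _) _ _ hf])⟩

theorem rs_dl (l : Dl Q) : Dl (rs Q h) := by
  rintro C ⟨B, b, x⟩
  obtain ⟨E, C', k⟩ := l B b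
  have y := fun e => (rs_cb (h := h) (k.mem e)).1
  refine ⟨fun e => rf Q (E e), rf Q C', fun e => (rs_cb (k.mem e)).2, (rs_cb k.cb).2,
    fun e f v hf => (io Q).injective ?_, fun f v hf => (der_iso (io Q)).1 ?_⟩
  · have p := Real.exp_pos e
    rw [x _ _ hf, rs_U p lor1, rs_U p lor1, y _ _ _ (t_sim p lor1 0 hf), k.law e f _ hf]
  · simpa only [y _ _ _ hf, (rs_cb (h := h) k.cb).1 _ _ hf] using k.der f (io Q v) hf

theorem rs_scl {B F C} (b : Q.bose B) (l : Scl Q B F C) :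
    Scl (rs Q h) (rf Q B) F fun i => rf Q (C i) :=
  ⟨fun i => ⟨rs_fld (l.1 i).1, fun _ => rs_bose ((l.1 i).2 b)⟩, fun s f v hs hf =>
    (io Q).injective (by
      simp only [map_sum, map_smul, rs_U hs lor1, rf_xt (Q.bose_fld B b) _ _ hf,
        rf_xt (l.1 _).1 _ _ (t_sim hs lor1 0 hf), l.2 s f _ hs hf])⟩

theorem prep0 (g : Gr Q G) (e : G Q.vac = Q.vac) (m : MfA Q) (l : Dl Q) :
    ∃ (h : Ok Q) (A : _), GI.Ge (rs Q h) (rg Q G) A :=
  ⟨ok_cov (cova0 g m l), ge_of (rs_gr g e) (rs_even g e) rs_cy (rs_mfa m) (rs_dl l)⟩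

theorem hb0 {A} (a : GI.Ge Q G A) (m : MfA Q) (l : Dl Q) (s : Stress0 Q T) (p : Dn.PGen Q T)
    (k : (∃ J, Dn.Vir Q T J) ∨ Dn.IVac Q) (c : ∀ m n, ∃ F B, Scl Q (T m n) F B) :
    Di.Hb Q G T A := by
  have v := cova0 a.toGr m l
  have p := pch_of a m s.bose p
  exact ⟨Bg.ge.2 a, Bg.stress0.2 s, p, k.elim (fun ⟨J, j⟩ => ivac_vc a
    (fun s y hs => v s _ y hs lor1) s.bose p (j.bose o) (vc_of0 a l s.bose j)) id, v,
    fun m n => have ⟨F, B, k⟩ := c m n; ⟨F, B, k.1, k.2⟩⟩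

theorem kit0 {A} (b : Di.Hb Q G T A) (x : ∀ v : D, Γ v = (G v : D)) (m : MfA Q)
    (r : Di.Reg1 Q G T A) {D' : Type u} [NormedAddCommGroup D'] [InnerProductSpace ℂ D']
    {R : Theory D'} {i G' T'} (s : Sect Q R i) (g : Gr R G') (c : Stress0 R T') (d : Dn.PGen R T')
    (e : ∀ m n, Xt i (T m n) (T' m n)) : (∃ S S', Q.IsStress S ∧ PCh Q S A ∧ R.IsStress S' ∧
      Dn.Same R T' S' ∧ (∀ m n, Xt i (S m n) (S' m n)) ∧ Xn0 Q Γ S) ∧
      (Max Q Γ (E.Mn.N1 D) R i → ∃ t, Cm R G' T' t) := by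
  obtain rfl : (E.Tp.cf b.toGe).Γ = Γ := P352X.EG.SGx.dext fun v =>
    ((E.Tp.cf b.toGe).hN.ext v).trans (x v).symm
  obtain ⟨S, S', h1, h0, h2, h3, h4, h5⟩ := Y.fourE b r s g c d e
  obtain ⟨_, _, -, k2, k3, k4, k5⟩ := fourE b r s g c d e
  exact ⟨⟨S, S', h1, h0, h3, h4, h5, extenE0 (E.Tp.cf b.toGe) (Br.mfa.1 m)
    (E.cov0_of (c := E.Tp.cf b.toGe) b.cov) h2⟩, N352.T.keyE _ k2 s g k3 k4 k5⟩

open P352R.G P352W.Net P352R.Lg in
theorem nets0 {A} {R : Theory D} (g : GI.Ge Q G A) (v : ∀ s, 0 < s → Cov Q s one 0)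
    (a : IsEnl R Q) (b : Gr R G) (c : N352.Flds R) (d : GI.Cy Q ∧ GI.Ana R ∨ EBd Q ∧ LEB R) :
    ∃ Γ N, LNg Q G A Γ N := by
  obtain ⟨Γ, _, _, k⟩ := (GI.thm D).sub Q R G A g a b c d.symm
  obtain ⟨M, h, _⟩ := k _ (Metric.ball_mem_nhds 0 one_pos) Metric.isBounded_ball
  exact ⟨Γ, _, lng h fun S B f hS hB hf =>
    have ⟨B', hB', ad⟩ := Q.adj B hB
    ⟨B' (bar f), fun v w => ad f v w hf.1, fun Y hY v' w =>
      Lc.wk (P352X.Fss.G.m1_gr (Br.gr.1 h.toGr)) v h.nhd h.bdd h.fld hS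
        (fun s y hs a X m X' e => ((mem_cmt (trf_star h.toGr)).1 (by rwa [vn_comm] at hY) X'
          ⟨s, _, y, X, m, hs, P352.H496.isLor_one, a, e⟩).symm) hB hB' ad hf v' w⟩⟩

theorem max0 {M} {D' : Type u} [NormedAddCommGroup D'] [InnerProductSpace ℂ D'] {R : Theory D'} {i}
    (m : Dn.Max Q Γ R i) : Max (rs Q h) (pg Q Γ) M R (i.comp (io Q)) := fun E S G' e L k l => by
  obtain ⟨B, a, b⟩ := m.max E S _ G' _ L ((rs_rst (h := h)).ext (fun _ => rf_xt) k) l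
  exact ⟨B, a, fun f hf => (b f hf).trans (jc_je _)⟩

variable (Q G T Γ) in
/-- the hypotheses -/
structure Hw : Prop where
  grading : Dn.Gr Q G
  even : G Q.vac = Q.vac
  ext : ∀ v : D, Γ v = (G v : D)
  stress : Dn.Stress Q T
  poincare : Dn.PGen Q T
  scale : (∃ J, Dn.Vir Q T J) ∨ Dn.IVac Q
  spin : MfA Q
  dil : Dl Q
  scl : ∀ m n, ∃ F B, Scl Q (T m n) F B
  ebd : Dn.EBd Q
  reg : ∃ N, Dn.Rgl Q G T Γ N

variable (H : Hw Q G T Γ)
include H

theorem Hw.st0 : Stress0 Q T := st0_of (gr.1 H.grading) H.stress H.poincare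

theorem Hw.sect : Sect (rs Q h) Q (LinearIsometry.id.comp (io Q)) :=
  rs_sect ⟨rfl, fun _ _ _ _ _ _ => rfl, cova0 (gr.1 H.grading) H.spin H.dil, fun B C p q =>
    ⟨B, C, p, q, fun _ _ _ => rfl, fun _ _ _ => rfl⟩⟩

theorem Hw.reg1 {A} (a : GI.Ge (rs Q h) (rg Q G) A) :
    Di.Reg1 (rs Q h) (rg Q G) (fun m n => rf Q (T m n)) A := by
  have g := gr.1 H.grading
  have t := fun m n => Q.bose_fld _ (H.stress.bose m n)
  have m := rs_mfa (h := h) H.spin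
  refine ⟨rs_ebd (Bg.ge.2 a) H.ebd, ?_⟩
  obtain ⟨N, n | ⟨-, r⟩ | ⟨R, n, g', f, r⟩⟩ := H.reg
  · obtain ⟨M, n', -⟩ := net_of' a m rs_cy ((rs_rst (h := h)).net
      (rg_coe g H.even) n.1) ((rs_rst (h := h)).rel (n.2.elim (rel_of_aff g n.1) id))
    exact .inr (.inr ⟨_, M, Bg.lng.2 n'⟩)
  · exact r.imp (rs_fbt (Bg.ge.2 a) t) fun r => .inl (rs_sl t H.stress.herm r)
  obtain ⟨Γ', M, n'⟩ := nets0 a (fun s hs => cova0 a.toGr m (rs_dl (h := h) H.dil) s _ 0 hs lor1)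
    (sb_enl (n := enl.1 n) (h := h)) (sb_gr g H.even (gr.1 g')) (sb_flds f)
      (r.imp (fun r => ⟨rs_cy, sb_ana r⟩) fun r =>
        ⟨Bg.ebd.1 (rs_ebd (Bg.ge.2 a) r.1), sb_leb (Bg.ge.2 a) r.2⟩)
  exact .inr (.inr ⟨_, M, Bg.lng.2 n'⟩)

theorem Hw.kit {A} (a : GI.Ge (rs Q h) (rg Q G) A) :
    (∃ S S', (rs Q h).IsStress S ∧ PCh (rs Q h) S A ∧ Q.IsStress S' ∧ Dn.Same Q T S' ∧
      (∀ m n, Xt (LinearIsometry.id.comp (io Q)) (S m n) (S' m n)) ∧ Xn0 (rs Q h) (pg Q Γ) S) ∧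
      (Max (rs Q h) (pg Q Γ) (E.Mn.N1 _) Q (LinearIsometry.id.comp (io Q)) → ∃ t, Cm Q G T t) := by
  have g := gr.1 H.grading
  have t := fun m n => Q.bose_fld _ (H.stress.bose m n)
  have m := rs_mfa (h := h) H.spin
  refine kit0 (T := fun m n => rf Q (T m n)) (hb0 a m (rs_dl (h := h) H.dil)
    (rs_st0 (h := h) H.st0) (rs_pgen (h := h) t H.poincare) (H.scale.imp
      (fun ⟨J, j⟩ => ⟨_, rs_vir (h := h) t j⟩) (rs_rst (h := h)).ivac) fun m n =>
        have ⟨F, B, k⟩ := H.scl m n; ⟨F, _, rs_scl (h := h) (H.stress.bose m n) k⟩)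
    (fun v => (je Q).injective ?_) m (H.reg1 a) (H.sect (h := h)) g H.st0 H.poincare fun m n => rf_xt (t m n)
  rw [je_pg, je_coe, je_coe, H.ext]
  exact congrArg _ (rg_coe g H.even v).symm

open Gz (ext_congr conf_congr) in
/-- **the local extension** -/
theorem ext9 : ∃ S, Q.IsStress S ∧ Dn.Same Q T S ∧
    ∃ (E : Type u) (_ : NormedAddCommGroup E) (_ : InnerProductSpace ℂ E) (P : Theory E)
      (k : E →ₗᵢ[ℂ] Completion D) (G' : E → E) (e : Fld D → Fld E) (t : Ix → Ix → Fld E),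
      Dn.Ext Q Γ P k G' e ∧ Dn.Stress P (fun m n => e (S m n)) ∧ GI.Cy P ∧
        ∀ R, Dn.IsEnl P R → Dn.Gr R G' →
          Dk.Cnf R G' (fun m n => e (S m n)) t ∧ Dn.PGen R fun m n => e (S m n) := by
  have g := gr.1 H.grading
  obtain ⟨h, A, a⟩ := prep0 g H.even H.spin H.dil
  obtain ⟨⟨S, S', h1, h2, b, c, h5, M, E, P, G1, e, L, y, ⟨gn, q⟩, s', sc, r⟩, -⟩ := H.kit a
  have s := fun m n => Q.bose_fld _ (b.bose m n)
  have u := (rs_rst (h := h)).ext (Γ := Γ) (fun _ => rf_xt) y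
  have cg := fun m n f v (hf : IsTest f) => ext_congr y (rs_fld (h := h) (s m n))
    ((rs Q h).bose_fld _ (h1.bose m n)) (fun f v hf => (io Q).injective
      ((rf_xt (s m n) f v hf).trans (h5 m n f v hf).symm)) hf v
  obtain ⟨A', -, a'⟩ := gen0 (P352X.Fss.G.m1_gr (Br.gr.1 y.toGr)) (F.cy.1 gn.1) q
  have pg := K.pgen_congr cg (pg_ext0 y (rs_cy (h := h)) (der0 a.der) a' h1.bose h2 gn sc
    (K.cnf y.toGr (r P ⟨rfl, rfl, fun _ h => h, fun _ h => h⟩ y.toGr)).toConf)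
  have bo := fun m n => u.bos _ (b.bose m n)
  have pc' := pch_of0 y.toGr a' (Br.mfa.2 q) bo pg
  exact ⟨S', b, c, E, _, _, P, _, G1, _, _, u, K.stress_congr s' bo cg, F.cy.1 gn.1,
    fun R u w => have r := r R (enl.1 u) (gr.1 w)
      (fun x => ⟨x, pg_enl0 a' pc' bo u x.toConf⟩) (K.cnf (gr.1 w) ⟨conf_congr cg r.1, r.2⟩)⟩

/-- **theories that contain the scalars of their extensions** -/
theorem conf9 (x : Dn.Max Q Γ Q .id) : ∃ t, Dk.Cnf Q G T t := by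
  have g := gr.1 H.grading
  obtain ⟨h, A, a⟩ := prep0 g H.even H.spin H.dil
  exact ((H.kit a).2 (max0 x)).imp fun _ => K.cnf g

end

end Vale.Agent.N352.V5
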