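import Vale.Agent.N352.V5.Gd

/-!
# N352, block V5: the generator of the dilations
-/

set_option linter.all false

noncomputable section

open Filter Topology
open Complex (I)
open scoped SchwartzMap

namespace Vale.Agent.N352.V5

open Vale.Agent.P352 Vale.Agent.P352.GF Vale.Agent.P352.H746 Vale.Agent.P352.H15
open Vale.Agent.P352.H246 Vale.Agent.P352.H496 Vale.Agent.P352W.Rp Vale.Agent.P352X
open Vale.Agent.P352H Vale.Agent.P352R
open F (dil_crv dil_sim)
open Fss (ds ds_test ds_inv)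

variable {D : Type*} [NormedAddCommGroup D] [InnerProductSpace ℂ D] {Q : Theory D}
  {A : (V → V) → D → D} {G : D → D} {B C : Fld D} {f : Fn}

/-- linear combinations of fields -/
def Cb (Q : Theory D) (X : Fld D) : Prop := ∃ (n : ℕ) (c : Fin n → ℂ) (A : Fin n → Fld D),
  (∀ i, Q.fld (A i)) ∧ ∀ f v, GF.IsTest f → X f v = ∑ i, c i • A i f v

/-- the dilates of `B` -/
structure Fam (Q : Theory D) (B : Fld D) (E : ℝ → Fld D) (C : Fld D) : Prop where
  mem : ∀ e, Cb Q (E e)
  cb : Cb Q C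
  law : ∀ e f v, GF.IsTest f → B f (Q.U (Real.exp e) GF.one 0 v) =
    Q.U (Real.exp e) GF.one 0 (E e (fun x => f (sim (Real.exp e) GF.one 0 x)) v)
  der : ∀ f v, GF.IsTest f → HasDerivAt (fun e => E e f v) (C f v) 0

/-- the dilations act differentiably on the fields -/
def Dl (Q : Theory D) : Prop := ∀ B, Q.fld B → ∃ E C, Fam Q B E C

theorem Cb.aj (h : Cb Q C) (hf : GF.IsTest f) : Aj (C f) := by
  obtain ⟨n, c, A, p, q⟩ := h
  choose W w using fun i => aj_fld (p i) hf
  exact ⟨fun z => ∑ i, star (c i) • W i z, fun z v => by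
    simp only [q f v hf, inner_sum, sum_inner, inner_smul_left, inner_smul_right, w,
      starRingEnd_apply, star_star]⟩

theorem u0 (v : D) : Q.U (Real.exp 0) GF.one 0 v = v := U_at0 dil_crv v

theorem ds1 (f : Fn) : ds 1 f = f := funext fun x => by rw [Fss.ds_apply, one_smul]

theorem Fam.zero {E} (h : Fam Q B E C) (hf : GF.IsTest f) (v : D) : E 0 f v = B f v := by
  have := h.law 0 f v hf
  rw [u0, u0, Real.exp_zero] at this
  simpa only [BW.H26.sim_one0] using this.symm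

theorem Fam.jt {E} (h : Fam Q B E C) (hf : GF.IsTest f) (v : D) :
    HasDerivAt (fun e => E e (ds (Real.exp e) f) v) (B (vf id f) v + C f v) 0 := by
  obtain ⟨F, rfl⟩ := exists_fl hf
  choose n c A p q using h.mem
  let T : ℝ → 𝓢(Mink, ℂ) →L[ℂ] D := fun e => ∑ i, c e i • fcl (p e i) v
  have t : ∀ e F, T e F = E e (fl F) v := fun e F => by
    simp only [T, ContinuousLinearMap.sum_apply, ContinuousLinearMap.smul_apply, fcl_apply,
      q e _ v (isTest_fl F)]
  have e : ∀ (z : V) n, id z n = (0 : V) n + 1 * z n + ∑ m, z m * (0 : ℝ) := by simp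
  have h2 := bs (l := 𝓝[≠] 0) T (fun F => E 0 (fl F) v) (fun F => by
    simp only [t]
    exact (h.der _ v (isTest_fl F)).continuousAt.tendsto.mono_left nhdsWithin_le_nhds)
    (dil_crv.tend F)
  rw [h.zero (isTest_fl _), fl_vfS e] at h2
  rw [hasDerivAt_iff_tendsto_slope]
  refine (h2.add (hasDerivAt_iff_tendsto_slope.1 (h.der _ v hf))).congr fun e => ?_
  have k : ∀ e, ds (Real.exp e) (fl F) = fl (dil_crv.cs F e) := fun e =>
    fl_sim _ (Real.exp_pos e) H496.isLor_one 0 F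
  simp only [slope_def_module, sub_zero, k, dil_crv.cs_zero, ← t,
    ContinuousLinearMap.map_smul_of_tower, map_sub, ← smul_add, sub_add_sub_cancel]

variable (R : Fss.G.M1 Q)
include R

theorem u_add (s t : ℝ) (v : D) : Q.U (Real.exp s) GF.one 0 (Q.U (Real.exp t) GF.one 0 v) =
    Q.U (Real.exp (s + t)) GF.one 0 v := by
  refine (R _ _ 0 _ _ 0 v (Real.exp_pos s) (Real.exp_pos t) H496.isLor_one H496.isLor_one (.inl rfl)).trans ?_
  simp only [Fss.sim_dil, zero_add, one_smul, smul_zero, Real.exp_add]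

theorem u_adj (t : ℝ) (v w : D) : inner ℂ w (Q.U (Real.exp t) GF.one 0 v) =
    inner ℂ (Q.U (Real.exp (-t)) GF.one 0 w) v := by
  rw [← Q.U_inner _ _ 0 _ v (Real.exp_pos t) H496.isLor_one, u_add R, add_neg_cancel, u0]

theorem Dl.cd (h : Dl Q) {s : ℝ} (hs : 0 < s) : P.Cov Q s GF.one 0 := by
  obtain ⟨t, rfl⟩ : ∃ t, Real.exp t = s := ⟨_, Real.exp_log hs⟩
  refine ⟨Function.Surjective.denseRange fun z => ⟨_, Fss.G.u_inv R hs z⟩, fun B hB => ?_⟩
  obtain ⟨E, C, k⟩ := h B hB
  obtain ⟨n, c, A, p, q⟩ := k.mem (-t)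
  refine ⟨n, c, A, p, fun f v hf => ?_⟩
  have := k.law (-t) _ (Q.U (Real.exp t) GF.one 0 v) (ds_test hs hf)
  rw [u_add R, neg_add_cancel, u0, show (fun x => ds (Real.exp t) f (sim (Real.exp (-t)) GF.one 0 x))
    = f from Real.exp_neg t ▸ ds_inv hs f] at this
  rw [show (fun x => f (sim (Real.exp t) GF.one 0 x)) = ds (Real.exp t) f from rfl, this, u_add R,
    add_neg_cancel, u0, q f _ hf]

omit R in
theorem cts {u : ℝ → D} {v : D} {c : ℂ} (n : ∀ e, ‖u e‖ = ‖v‖) (z : u 0 = v)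
    (h : HasDerivAt (fun e => inner ℂ v (u e)) c 0) : Tendsto u (𝓝 0) (𝓝 v) := by
  have k := ((RCLike.continuous_re (K := ℂ)).tendsto _).comp h.continuousAt.tendsto
  rw [z, inner_self_eq_norm_sq] at k
  have k2 := ((k.const_mul 2).const_sub (‖v‖ ^ 2)).add_const (‖v‖ ^ 2)
  rw [show ‖v‖ ^ 2 - 2 * ‖v‖ ^ 2 + ‖v‖ ^ 2 = 0 by ring] at k2
  rw [tendsto_iff_norm_sub_tendsto_zero]
  have k3 := k2.sqrt
  rw [Real.sqrt_zero] at k3
  refine k3.congr fun e => ?_
  rw [norm_sub_rev, ← Real.sqrt_sq (norm_nonneg (v - u e)), @norm_sub_sq ℂ, n]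
  rfl

theorem weak (c : GI.Cy Q) (h : Dl Q) (v : D) : ∃ y, ∀ w,
    HasDerivAt (fun e => inner ℂ w (Q.U (Real.exp e) GF.one 0 v)) (inner ℂ w y) 0 := by
  have p := Real.exp_pos
  let S : Submodule ℂ D :=
    { carrier := {v | ∃ y, ∀ w,
        HasDerivAt (fun e => inner ℂ w (Q.U (Real.exp e) GF.one 0 v)) (inner ℂ w y) 0}
      add_mem' := fun ⟨y, a⟩ ⟨y', b⟩ => ⟨y + y', fun w => by
        simpa only [fun e => U_add (Q := Q) (p e) H496.isLor_one, inner_add_right] using
          (a w).fun_add (b w)⟩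
      zero_mem' := ⟨0, fun w => by
        simpa only [u_adj R, inner_zero_right] using hasDerivAt_const (0 : ℝ) (0 : ℂ)⟩
      smul_mem' := fun c _ ⟨y, a⟩ => ⟨c • y, fun w => by
        simpa only [fun e => U_smul (Q := Q) (p e) H496.isLor_one, inner_smul_right] using
          (a w).const_mul c⟩ }
  refine (c S ⟨0, fun w => ?_⟩ ?_).ge Submodule.mem_top
  · simpa only [fun e => Q.U_vac _ _ 0 (p e) H496.isLor_one, inner_zero_right] using
      hasDerivAt_const (0 : ℝ) _
  rintro B f v hB hf ⟨y, a⟩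
  obtain ⟨B', b, ad⟩ := Q.adj B hB
  obtain ⟨E, C, k⟩ := h B' b
  have t := Ap.test_bar hf
  obtain ⟨W, w1⟩ := k.cb.aj t
  obtain ⟨W', w2⟩ := aj_fld b (isTest_vf dil_sim t)
  have hz : ∀ z u : D, inner ℂ z (B f u) = inner ℂ (B' (bar f) z) u := fun z u => by
    rw [← inner_conj_symm, ad _ u z hf, inner_conj_symm]
  refine ⟨B f y - W' v - W v, fun w => ?_⟩
  have d : HasDerivAt (fun e => E (-e) (ds (Real.exp (-e)) (bar f)) w)
      (-(B' (vf id (bar f)) w + C (bar f) w)) 0 :=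
    ((k.jt t w).scomp_of_eq (0 : ℝ) (hasDerivAt_neg (0 : ℝ)) neg_zero.symm).congr_deriv
      (neg_one_smul ℝ _)
  have z : E (-0) (ds (Real.exp (-0)) (bar f)) w = B' (bar f) w := by
    rw [neg_zero, k.zero (ds_test (p 0) t), Real.exp_zero, ds1]
  have x : inner ℂ w (B f y - W' v - W v) = inner ℂ (-(B' (vf id (bar f)) w + C (bar f) w)) v +
      inner ℂ (B' (bar f) w) y := by
    rw [inner_sub_right, inner_sub_right, hz, inner_neg_left, inner_add_left,
      ← inner_conj_symm w, ← inner_conj_symm w, ← w1, ← w2, inner_conj_symm, inner_conj_symm]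
    ring
  have q : ∀ e, inner ℂ w (Q.U (Real.exp e) GF.one 0 (B f v)) =
      inner ℂ (E (-e) (ds (Real.exp (-e)) (bar f)) w) (Q.U (Real.exp e) GF.one 0 v) := fun e => by
    rw [u_adj R, hz, k.law _ _ _ t, u_adj R]
    rfl
  rw [x, hasDerivAt_iff_tendsto_slope]
  refine ((((hasDerivAt_iff_tendsto_slope.1 d).inner ((cts (fun e => U_nrm0 (p e) H496.isLor_one 0 v)
    (u0 v) (a v)).mono_left nhdsWithin_le_nhds))).add
    (hasDerivAt_iff_tendsto_slope.1 (a (B' (bar f) w)))).congr fun e => ?_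
  have r : ∀ (c : ℝ) (x y : D), inner ℂ (c • x) y = c • inner ℂ x y := fun c x y =>
    inner_smul_real_left (𝕜 := ℂ) x y c
  simp only [slope_def_module, q, z, r, inner_sub_left, ← smul_add, sub_add_sub_cancel]

/-- **the dilations are differentiable on the domain** -/
theorem strong (c : GI.Cy Q) (h : Dl Q) : ∃ Y : D → D, ∀ v,
    HasDerivAt (fun e => Q.U (Real.exp e) GF.one 0 v) (I • Y v) 0 := by
  have p := Real.exp_pos
  choose y a using weak R c h
  refine ⟨fun v => -I • y v, fun v => ?_⟩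
  rw [smul_smul, mul_neg, Complex.I_mul_I, neg_neg, one_smul, hasDerivAt_iff_isLittleO_nhds_zero,
    Asymptotics.isLittleO_iff]
  intro ε hε
  obtain ⟨δ, hδ, k⟩ := Metric.tendsto_nhds_nhds.1
    (cts (fun e => U_nrm0 (p e) H496.isLor_one 0 (y v)) (u0 _) (a _ _)) ε hε
  filter_upwards [Metric.ball_mem_nhds (0 : ℝ) hδ] with t ht
  rw [zero_add, u0]
  set w := Q.U (Real.exp t) GF.one 0 v - v - t • y v with hw
  have d : ∀ r : ℝ, HasDerivAt (fun e : ℝ => inner ℂ w (Q.U (Real.exp e) GF.one 0 v) -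
      e • inner ℂ w (y v)) (inner ℂ w (Q.U (Real.exp r) GF.one 0 (y v) - y v)) r := fun r => by
    have b := HasDerivAt.comp_const_add (-r) r ((neg_add_cancel r).symm ▸
      a v (Q.U (Real.exp (-r)) GF.one 0 w))
    simp only [← u_adj R, u_add R, add_neg_cancel_left] at b
    simpa only [inner_sub_right, one_smul] using
      b.fun_sub ((hasDerivAt_id' r).smul_const (inner ℂ w (y v)))
  have m := (convex_ball (0 : ℝ) δ).norm_image_sub_le_of_norm_hasDerivWithin_le
    (C := ‖w‖ * ε) (fun r _ => (d r).hasDerivWithinAt) (fun r hr =>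
      (norm_inner_le_norm _ _).trans (mul_le_mul_of_nonneg_left
        (by simpa only [dist_eq_norm] using (k hr).le) (norm_nonneg w)))
    (Metric.mem_ball_self hδ) ht
  rw [u0, zero_smul, sub_zero, sub_zero, sub_right_comm,
    show t • inner ℂ w (y v) = inner ℂ w (t • y v) from
      (inner_smul_real_right (𝕜 := ℂ) w (y v) t).symm, ← inner_sub_right, ← inner_sub_right, ← hw, inner_self_eq_norm_sq_to_K, norm_pow,
    RCLike.norm_ofReal, abs_norm, pow_two, mul_assoc] at m
  rcases (norm_nonneg w).eq_or_lt with e | e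
  · rw [← e]
    positivity
  exact le_of_mul_le_mul_left m e

omit R in
theorem Fam.comm {E} (k : Fam Q B E C) (hB : Q.fld B) {Y : D → D}
    (d : ∀ v, HasDerivAt (fun e => Q.U (Real.exp e) GF.one 0 v) (I • Y v) 0) (hf : GF.IsTest f)
    (v : D) : Y (B f v) - B f (Y v) = I • (B (vf id f) v + C f v) := by
  obtain ⟨W, w⟩ := aj_fld hB hf
  have h1 := Tn.der_U dil_crv d (k.jt hf v)
  rw [k.zero (ds_test (Real.exp_pos 0) hf), Real.exp_zero, ds1] at h1
  have key : I • B f (Y v) = I • Y (B f v) + (B (vf id f) v + C f v) := ext_inner_left ℂ fun z => by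
    rw [inner_smul_right, w]
    refine (F.Pg.inn (d v) (W z)).unique ((((innerSL ℂ z).restrictScalars ℝ).hasFDerivAt.comp_hasDerivAt
      (0 : ℝ) h1).congr_of_eventuallyEq (.of_forall fun e => ?_))
    show inner ℂ _ (Q.U _ _ _ v) = inner ℂ z (Q.U _ _ _ _)
    rw [← w, k.law e f v hf]
    rfl
  linear_combination (norm := module) I • key + Complex.I_mul_I • (Y (B f v) - B f (Y v))

omit R in
/-- **the generators** -/
theorem ge_of (g : P.Gr Q G) (e : G Q.vac = Q.vac) (c : GI.Cy Q) (m : P.MfA Q) (h : Dl Q) :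
    ∃ A, GI.Ge Q G A := by
  have R := Fss.G.m1_gr (Br.gr.1 g)
  obtain ⟨A, a, b⟩ := gen0 R c (Br.mfa.1 m)
  obtain ⟨Y, y⟩ := strong R c h
  have i : ∀ {r X} (t : ℝ), IsSim r X → IsSim (r - t) fun z => X z - t • z := fun t ⟨c, w, p, q⟩ =>
    ⟨c, w, p, fun z n => by simp only [Pi.sub_apply, Pi.smul_apply, smul_eq_mul, q]; ring⟩
  refine ⟨fun X v => A (fun z => X z - rX X • z) v + (rX X : ℂ) • Y v, g, e,
    fun r r' t X X' v p q => ?_, fun s L x X v s0 L0 a0 hp hX => ?_⟩
  · have := a _ _ t _ _ v (i (rX X) p) (i (rX X') q)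
    beta_reduce
    rw [show (fun z => X z + t • X' z - rX (fun z => X z + t • X' z) • z) =
      fun z => X z - rX X • z + t • (X' z - rX X' • z) from funext fun z => by
        rw [rX_add]; module, this, rX_add]
    push_cast
    module
  obtain ⟨K, k⟩ := cur s0 L0 a0 hp hX
  have K0 : Crv (fun _ => 1) L x (wX X) 0 (X 0) :=
    ⟨rfl, L0, a0, fun _ => one_pos, K.lor, hasDerivAt_const _ _, K.dL, K.da⟩
  have l := K.ds.log (K.sp 0).ne'
  have d := Tn.der_U K0 (b.crv (X := fun z => X z - rX X • z) K0 fun z n => by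
      simp only [Pi.sub_apply, Pi.smul_apply, smul_eq_mul, k z n]; ring)
    ((y v).scomp_of_eq (0 : ℝ) l (by rw [s0, Real.log_one]))
  simp only [Function.comp, s0, Real.log_one, u0, div_one] at d
  refine (d.congr_of_eventuallyEq (.of_forall fun e => ?_)).congr_deriv ?_
  · beta_reduce
    rw [Real.exp_log (K.sp e)]
    exact (Fss.G.U_dil R (K.sp e) (K.lor e) _ v).2.symm
  · rw [smul_add, smul_comm I]
    rfl

end Vale.Agent.N352.V5

end
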