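import Vale.Agent.N352.Y.Top

/-!
# N352, block V5: the generators of the Poincare transformations
-/

set_option linter.all false

noncomputable section

open Filter Topology Complex
open scoped SchwartzMap

namespace Vale.Agent.N352.V5

open Vale.Agent.P352 Vale.Agent.P352.GF Vale.Agent.P352.H746 Vale.Agent.P352.H15
open Vale.Agent.P352.H246 Vale.Agent.P352.H496 Vale.Agent.P352W.Rp Vale.Agent.P352X
open Vale.Agent.P352H Vale.Agent.P352R

variable {D : Type*} [NormedAddCommGroup D] [InnerProductSpace ℂ D] {Q : Theory D}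
  {A : (V → V) → D → D}

/-- vectors in the domain of the generators -/
def Gd0 (Q : Theory D) (v : D) : Prop := ∃ Y : (V → V) → D,
  (∀ r r' (t : ℝ) X X', IsSim r X → IsSim r' X' →
    Y (fun z => X z + t • X' z) = Y X + (t : ℂ) • Y X') ∧
  ∀ L a X, Cv (fun _ => 1) L a X → ∃ x : ℝ → D, (∀ e, Q.U 1 (L e) (a e) (x e) = v) ∧ Dif x (Y X)

theorem gd_inv0 {v : D} (h : ∀ L a, IsLor L → Q.U 1 L a v = v) : Gd0 Q v :=
  ⟨fun _ => 0, fun _ _ _ _ _ _ _ => by simp, fun L a X K =>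
    ⟨fun _ => v, fun e => h _ _ (K.1.lor e), dif_const v⟩⟩

theorem Gd0.add {v w : D} (hv : Gd0 Q v) (hw : Gd0 Q w) : Gd0 Q (v + w) := by
  obtain ⟨Y, h1, h2⟩ := hv
  obtain ⟨Y', h1', h2'⟩ := hw
  refine ⟨fun X => Y X + Y' X, fun r r' t X X' hX hX' => ?_, fun L a X K => ?_⟩
  · simp only [h1 r r' t X X' hX hX', h1' r r' t X X' hX hX', smul_add]
    abel
  · obtain ⟨x, h3, h4⟩ := h2 L a X K
    obtain ⟨x', h3', h4'⟩ := h2' L a X K
    exact ⟨fun e => x e + x' e, fun e => by rw [U_add one_pos (K.1.lor e), h3, h3'], h4.add h4'⟩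

theorem Gd0.smul {v : D} (hv : Gd0 Q v) (c : ℂ) : Gd0 Q (c • v) := by
  obtain ⟨Y, h1, h2⟩ := hv
  refine ⟨fun X => c • Y X, fun r r' t X X' hX hX' => ?_, fun L a X K => ?_⟩
  · simp only [h1 r r' t X X' hX hX', smul_add]
    rw [smul_comm c]
  · obtain ⟨x, h3, h4⟩ := h2 L a X K
    exact ⟨fun e => c • x e, fun e => by rw [U_smul one_pos (K.1.lor e), h3], h4.smul c⟩

theorem gd_fld0 {ι : Type*} [Fintype ι] {B : ι → Fld D} (hB : ∀ k, Q.fld (B k)) {B0 : Fld D}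
    (C : (Ix → V) → ι → ℂ) (C' : (V → V) → ι → ℂ)
    (hC : ∀ L a X k, Cv (fun _ => 1) L a X → HasDerivAt (fun e => C (L e) k) (C' X k) 0)
    (hC' : ∀ X X' (t : ℝ) k, C' (fun z => X z + t • X' z) k = C' X k + t * C' X' k)
    (cov : ∀ L a f v, IsLor L → GF.IsTest f → B0 f (Q.U 1 L a v) =
      ∑ k, C L k • Q.U 1 L a (B k (fun x => f (sim 1 L a x)) v))
    {f : Fn} (hf : GF.IsTest f) {v : D} (hv : Gd0 Q v) : Gd0 Q (B0 f v) := by
  obtain ⟨Y, h1, h2⟩ := hv
  refine ⟨fun X => ∑ k, (C' X k • B k f v +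
    C GF.one k • (B k (vf X f) v + B k f (Y X))), fun r r' t X X' hX hX' => ?_,
    fun L a X K => ?_⟩
  · have e1 : vf (fun z => X z + t • X' z) f = fun x => vf X f x + (t : ℂ) * vf X' f x := by
      funext x
      simp only [vf, Pi.add_apply, Pi.smul_apply, smul_eq_mul, Finset.mul_sum,
        ← Finset.sum_add_distrib]
      refine Finset.sum_congr rfl fun n _ => ?_
      push_cast
      ring
    simp only [Finset.smul_sum, ← Finset.sum_add_distrib]
    refine Finset.sum_congr rfl fun k _ => ?_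
    rw [h1 r r' t X X' hX hX', hC', e1,
      Q.lin _ _ _ _ v (hB k) (isTest_vf hX hf) (isTest_vf hX' hf), (aj_fld (hB k) hf).add,
      (aj_fld (hB k) hf).smul]
    module
  · obtain ⟨x, h3, h4⟩ := h2 L a X K
    obtain ⟨F, rfl⟩ := exists_fl hf
    have x0 : x 0 = v := (U_at0 K.1 _).symm.trans (h3 0)
    refine ⟨fun e => ∑ k, C (L e) k • B k (fl (K.1.cs F e)) (x e), fun e => ?_, ?_⟩
    · obtain ⟨u, hu⟩ := U_lin (Q := Q) one_pos (K.1.lor e) (a e)
      rw [← h3 e, cov _ _ _ _ (K.1.lor e) hf, hu, map_sum]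
      refine Finset.sum_congr rfl fun k _ => ?_
      rw [map_smul, hu, fl_sim 1 one_pos (K.1.lor e)]
      rfl
    · refine dif_sum _ fun k => ?_
      have h5 := dif_mul (h4.fld (hB k) (g := K.1.cs F) (g' := vfS (wX X) (rX X) (X 0) F)
        (by rw [K.1.cs_zero]; exact K.1.tend F)) (hC L a X k K)
      simp only [K.1.cs_zero, x0, K.1.L0, fl_vfS K.2] at h5
      exact h5

theorem der_of0 (h : ∀ v, Gd0 Q v) {L : ℝ → Ix → V} {a : ℝ → V} {X : V → V}
    (K : Cv (fun _ => 1) L a X) {v y : D} {x : ℝ → D} (h3 : ∀ e, Q.U 1 (L e) (a e) (x e) = v)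
    (h4 : Dif x y) : HasDerivAt (fun e => Q.U 1 (L e) (a e) v) (-y) 0 := by
  have u0 : ∀ w, Q.U 1 (L 0) (a 0) w = w := U_at0 K.1
  have x0 : x 0 = v := by rw [← h3 0, u0]
  have t1 : Tendsto (fun e => Q.U 1 (L e) (a e) y - y) (𝓝[≠] 0) (𝓝 0) := by
    obtain ⟨Y, -, h2⟩ := h y
    obtain ⟨x', h3', h4'⟩ := h2 L a X K
    have x0' : x' 0 = y := by rw [← h3' 0, u0]
    have h5 := ((h4' _ aj_id).continuousAt.tendsto.mono_left
      (nhdsWithin_le_nhds (s := {0}ᶜ))).const_sub y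
    simp only [x0', sub_self] at h5
    rw [tendsto_zero_iff_norm_tendsto_zero] at h5 ⊢
    refine h5.congr fun e => ?_
    rw [← U_nrm0 (Q := Q) one_pos (K.1.lor e) (a e), H746.U_sub' one_pos (K.1.lor e), h3']
  have t2 : Tendsto (fun e => Q.U 1 (L e) (a e) (slope x 0 e - y)) (𝓝[≠] 0) (𝓝 0) := by
    have h1 := (hasDerivAt_iff_tendsto_slope.1 (h4 _ aj_id)).sub_const y
    rw [sub_self] at h1
    rw [tendsto_zero_iff_norm_tendsto_zero] at h1 ⊢
    refine h1.congr fun e => ?_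
    rw [U_nrm0 one_pos (K.1.lor e)]
  have t3 := ((t1.add t2).add_const y).neg
  rw [add_zero, zero_add] at t3
  rw [hasDerivAt_iff_tendsto_slope]
  refine t3.congr fun e => ?_
  have e2 : ∀ u : ℝ → D, slope u 0 e = ((e : ℂ))⁻¹ • (u e - u 0) := by
    intro u
    rw [slope_def_module, sub_zero, ← ofReal_inv]
    rfl
  rw [e2, e2, H746.U_sub' one_pos (K.1.lor e), U_smul one_pos (K.1.lor e),
    H746.U_sub' one_pos (K.1.lor e), h3, x0, u0]
  simp only [smul_sub]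
  abel

theorem u_split (R : Fss.G.M1 Q) {L : Ix → V} (hL : IsLor L) (a : V) (z : D) :
    Q.U 1 L a z = Q.U 1 GF.one a (Q.U 1 L 0 z) := by
  refine Eq.trans ?_ (R 1 _ _ 1 _ 0 _ one_pos one_pos H496.isLor_one hL (.inl rfl)).symm
  simp only [Fss.sim_dil, zero_add, one_smul, smul_zero, add_zero, mul_one]

theorem mf_cov (R : Fss.G.M1 Q) {k : Rp} {Φ : Fin k.n → Fld D} (m : IsMf Q k Φ) (b : Fin k.n)
    {L : Ix → V} (hL : IsLor L) (a : V) {f : Fn} (hf : GF.IsTest f) (v : D) :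
    Φ b f (Q.U 1 L a v) = ∑ c, k.ρ L c b • Q.U 1 L a (Φ c (fun x => f (sim 1 L a x)) v) := by
  have o := H496.isLor_one
  obtain ⟨u, hu⟩ := U_lin (Q := Q) one_pos o a
  rw [u_split R hL, Q.transl _ _ f _ (m.1 b) hf, m.2 b _ _ v hL (Ap.test_sim one_pos o _ hf), hu,
    map_sum]
  refine Finset.sum_congr rfl fun b' _ => ?_
  rw [map_smul, u_split R hL a, hu]
  congr 4
  funext x
  rw [Fss.sim_dil, N86.c1_sim 1 L a, one_smul]

theorem gd_all0 (R : Fss.G.M1 Q) (gen : GI.Cy Q) (hM : MfAll Q) (w : D) : Gd0 Q w := by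
  let S : Submodule ℂ D :=
    { carrier := {v | Gd0 Q v}
      add_mem' := fun hv hw => Gd0.add hv hw
      zero_mem' := gd_inv0 fun L a hL => by
        obtain ⟨u, hu⟩ := U_lin (Q := Q) one_pos hL a
        rw [hu, map_zero]
      smul_mem' := fun c _ hv => Gd0.smul hv c }
  refine (gen S (gd_inv0 fun L a hL => Q.U_vac _ _ _ one_pos hL) fun B f v hB hf hv => ?_).ge
    Submodule.mem_top
  obtain ⟨n, E, h2, h3⟩ := hM B hB
  rw [h3 f v hf]
  refine sum_mem fun i _ => ?_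
  obtain ⟨k, Φ, c, hΦ, e⟩ := h2 i
  rw [e]
  refine gd_fld0 hΦ.1 (fun L p => k.ρ L p c) (fun X p => ∑ m, ∑ n, wX X m n * k.S m n p c)
    (fun L a X p K => k.der L _ p c K.1.L0 K.1.lor K.1.dL) (fun X X' t p => ?_)
    (fun L a f v hL hf => mf_cov R hΦ c hL a hf v) hf hv
  simp only [wX_add, ofReal_add, ofReal_mul, add_mul, Finset.sum_add_distrib, mul_assoc,
    ← Finset.mul_sum]

/-- the operators `A X` generate the Poincare transformations -/
def Der0 (Q : Theory D) (A : (V → V) → D → D) : Prop :=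
  ∀ (L : ℝ → Ix → V) (a : ℝ → V) X v, L 0 = GF.one → a 0 = 0 → (∀ e, IsLor (L e)) →
    (∀ n x, HasDerivAt (fun e => sim 1 (L e) (a e) x n) (X x n) 0) →
    HasDerivAt (fun e => Q.U 1 (L e) (a e) v) (I • A X v) 0

theorem der0 (h : Tn.Der Q A) : Der0 Q A := fun L a X v p q r d =>
  h (fun _ => 1) L a X v rfl p q (fun e => ⟨one_pos, r e⟩) d

theorem Der0.crv (h : Der0 Q A) {L : ℝ → Ix → V} {a : ℝ → V} {w : Ix → V} {r : ℝ} {y : V}
    {X : V → V} (K : Crv (fun _ => 1) L a w r y)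
    (hX : ∀ z n, X z n = y n + r * z n + ∑ m, z m * w m n) (v : D) :
    HasDerivAt (fun e => Q.U 1 (L e) (a e) v) (I • A X v) 0 :=
  h L a X v K.L0 K.a0 K.lor fun n x => K.dX hX n x

theorem gen0 (R : Fss.G.M1 Q) (c : GI.Cy Q) (m : MfAll Q) : ∃ A : (V → V) → D → D,
    (∀ r r' (c : ℝ) X X' v, IsSim r X → IsSim r' X' →
      A (fun z => X z + c • X' z) v = A X v + (c : ℂ) • A X' v) ∧ Der0 Q A := by
  have h := gd_all0 R c m
  choose Y h1 h2 using id h
  refine ⟨fun X v => I • Y v X, fun r r' t X X' v hX hX' => ?_, fun L a X v L0 a0 hp hX => ?_⟩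
  · beta_reduce
    rw [h1 v r r' t X X' hX hX', smul_add, smul_comm I]
  · have K := cur (s := fun _ => 1) rfl L0 a0 (fun e => ⟨one_pos, hp e⟩) hX
    obtain ⟨x, h3, h4⟩ := h2 v L a X K
    rw [smul_smul, I_mul_I, neg_one_smul]
    exact der_of0 h K h3 h4

/-- the commutators of the generators with multiplets -/
theorem gen_mf0 (h : Der0 Q A) (R : Fss.G.M1 Q) {y : V} {w : Ix → V} {X : V → V}
    (hw : ∀ m n, GF.eta n * w m n = -(GF.eta m * w n m))
    (hX : ∀ z n, X z n = y n + 0 * z n + ∑ m, z m * w m n) {k : Rp} {Φ : Fin k.n → Fld D}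
    (m : IsMf Q k Φ) (b : Fin k.n) {f : Fn} (hf : GF.IsTest f) (v : D) :
    A X (Φ b f v) - Φ b f (A X v) = I • (∑ b', CA.G.sg k w b' b • Φ b' f v + Φ b (vf X f) v) := by
  obtain ⟨L, L0, hL, dL⟩ := exists_lor hw
  have K : Crv (fun _ => 1) L (fun e => e • y) w 0 y :=
    ⟨rfl, L0, zero_smul _ _, fun _ => one_pos, hL, hasDerivAt_const _ _, dL, fun n => by
      simpa using hasDerivAt_mul_const (x := (0 : ℝ)) (y n)⟩
  refine Tn.gen_cov K (h.crv K hX) hX m.1 (m.1 b) (C := fun e b' => k.ρ (L e) b' b)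
    (fun b' => k.der L w b' b L0 hL dL) hf v (fun g _ => ?_) fun e => mf_cov R m b (hL e) _ hf v
  simp [L0, k.id, Matrix.one_apply]

end Vale.Agent.N352.V5

end
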