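import Vale.Agent.N352.V5.Top
import Vale.Agent.N352.Y.Thm
import Vale.Agent.N352.DefW

/-!
# N352, block V5: the hypotheses in the Hilbert space, and the Borchers class
-/

set_option linter.all false

open Filter Topology
open scoped ComplexConjugate

noncomputable section

namespace Vale.Agent.N352.H.Rl

open P352.GF F P352R V5

variable {H : Type*} [NormedAddCommGroup H] [InnerProductSpace ℂ H] [CompleteSpace H]
  {K : Dh.Frame H} {E : Type*} [NormedAddCommGroup E] [InnerProductSpace ℂ E]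
  {S : Dh.Theory K} {Q : Theory E} {φ : E →ₗᵢ[ℂ] H} {G : E → E} (h : Rl S Q φ G)
include h

theorem mfa0 (k : Dh.Cvt S) : P.MfA Q := F.mfa.1 <| Z.mfa.1 fun B b => by
  obtain ⟨A, s, x⟩ := h.up B b
  obtain ⟨n, r, Φ, a, p, q, e⟩ := (k A s).1
  choose Ψ y z using fun i c => h.dn _ (p i c)
  exact ⟨n, fun i => Ψ i (a i), fun i => ⟨rz (r i), Ψ i, a i, ⟨y i, fun c L f v l t =>
    (h.ml (k := rz (r i)) (z i) c L f v l t).1 (q i c L f l t _ (h.mem v))⟩, rfl⟩,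
    fun f v t => φ.injective (by
      rw [← x f v t, e f t _ (h.mem v), map_sum]
      exact Finset.sum_congr rfl fun i _ => z _ _ f v t)⟩

theorem scl0 {A B} (x : Eqv φ A B) (k : Dh.Scl S A) : ∃ F C, P.Scl Q B F C := by
  obtain ⟨F, C, p, q⟩ := k
  choose C' y z using fun i => h.dn _ (p i)
  obtain ⟨C, c⟩ := fsl_of h.gr y fun r f v hs t =>
    (h.law x z r f v hs t).1 (q r f hs t _ (h.mem v))
  exact ⟨F, C, c.1, c.2⟩

theorem cb {X} (a : X ∈ Dh.Sp {X | S.fld X}) : ∃ Y, Cb Q Y ∧ Eqv φ X Y := by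
  obtain ⟨n, c, A, rfl⟩ := Submodule.mem_span_set'.1 a
  choose B y z using fun i => h.dn _ (A i).2
  exact ⟨fun f v => ∑ i, c i • B i f v, ⟨n, c, B, y, fun _ _ _ => rfl⟩, fun f v t => by
    simp only [Finset.sum_apply, Pi.smul_apply, z _ f v t, map_sum, map_smul]⟩

theorem dl (k : Dh.Cvt S) : V5.Dl Q := fun B b => by
  obtain ⟨A, s, x⟩ := h.up B b
  obtain ⟨X, C, p, q, r⟩ := (k A s).2
  choose Y y z using fun e => h.cb (p e).1
  obtain ⟨C', c, w⟩ := h.cb (p 0).2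
  refine ⟨Y, C', y, c, fun e f v t => φ.injective ?_, fun f v t => (der_iso φ).1 ?_⟩
  · have o := Real.exp_pos e
    rw [← x f _ t, ← h.U _ _ _ _ o lor1, ← h.U _ _ _ _ o lor1, ← z _ _ _ (t_sim o lor1 0 t)]
    exact q e f t _ (h.mem v)
  · simpa only [z _ f v t, w f v t] using r f t _ (h.mem v)

theorem dd0 (f : Dh.Cvt S) : Dd Q := fun m v c => by
  obtain ⟨o, A, a⟩ := prep0 (F.gr.1 (Z.gr.1 h.gr)) h.even (h.mfa0 f) (h.dl f)
  have e := rs_dv (Bg.ge.2 a) m ⟨v, c⟩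
  exact ⟨e ▸ Subtype.property _, e ▸ rs_der (Bg.ge.2 a) m ⟨v, c⟩⟩

end Vale.Agent.N352.H.Rl

namespace Vale.Agent.N352.Bo

open P352.GF F Rn P352R N352.H
open UniformSpace (Completion)

variable {H : Type*} [NormedAddCommGroup H] [InnerProductSpace ℂ H] [CompleteSpace H]
  {K : Dh.Frame H} {Q P : Dh.Theory K} {A C : Fld H} {f g : Fn} {O : Set V}
  {X Y : Module.End ℂ P.dom} (e : ∀ B, Q.fld B → ∃ C, P.fld C ∧ Dh.Agr Q B C)
include e

theorem xd0 (h : Dh.Cvt Q) : ∃ (D : Submodule ℂ Q.dom) (c : E.Cf D) (κ k : _),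
    Xd c κ k (gd P) (Le Q P) := by
  obtain ⟨S, G, R⟩ := ex_rl Q
  have g := F.gr.1 (Z.gr.1 R.gr)
  have m := R.mfa0 h
  have l := R.dl h
  obtain ⟨o, A, a⟩ := V5.prep0 g R.even m l
  let j := (je S).trans (iso _ R.dr)
  have c : ∀ v : N352.cy S, j v = v.1 := fun v => (congrArg _ (je_coe v)).trans (iso_coe _ R.dr _)
  obtain ⟨Γ, u⟩ := p_sur j.conjStarAlgEquiv K.Γ
  have y : ∀ v : N352.cy S, Dh.Cyc Q v.1 := fun v => R.cyc_up v.2
  refine ⟨_, ⟨rs S o, rg S G, A, Γ, Br.gr.1 a.toGr, a.vac, a.add, a.der, fun v => j.injective ?_⟩,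
    j.symm.toLinearIsometry.comp P.dom.subtypeₗᵢ, fun v => ⟨_, cyc_mem e (y v)⟩,
    Br.mfa.1 (rs_mfa (h := o) m), fun L x i => V5.cova0 a.toGr (rs_mfa m) (V5.rs_dl l) 1 L x
      one_pos i, fun v => j.symm_apply_eq.2 (c v).symm,
    fun x => j.symm_apply_eq.2 ?_, fun O B f ⟨B', b, x⟩ i => ?_⟩
  · rw [← cj, u, c, c]
    exact (R.gam _).trans (congrArg _ (rg_coe g R.even v).symm)
  · exact ((cj j Γ _).symm.trans (by rw [u]; exact congrArg _ (j.apply_symm_apply _))).symm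
  obtain ⟨A, s, z⟩ := R.up B' b
  obtain ⟨A0, A1, s0, s1, p0, p1, w⟩ := Q.split A s
  obtain ⟨C0, q0, z0⟩ := e A0 s0
  obtain ⟨C1, q1, z1⟩ := e A1 s1
  obtain ⟨X0, x0⟩ := ex_end (rel_of e q0) i.1
  obtain ⟨X1, x1⟩ := ex_end (rel_of e q1) i.1
  obtain ⟨Y0, y0⟩ := ex_ad e (rel_of e q0) i.1 x0
  obtain ⟨Y1, y1⟩ := ex_ad e (rel_of e q1) i.1 x1
  refine ⟨X0 + X1, add_mem (Algebra.subset_adjoin ⟨_, _, f, 1, s0, q0, z0, .inl rfl, p0, i, x0⟩)
    (Algebra.subset_adjoin ⟨_, _, f, -1, s1, q1, z1, .inr rfl, p1, i, x1⟩), ⟨Y0 + Y1, fun v w => by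
      simp only [LinearMap.add_apply, inner_add_left, inner_add_right, y0 v w, y1 v w]⟩,
    fun v => Subtype.ext ?_⟩
  rw [LinearMap.add_apply, Submodule.coe_add, x0, x1, z0 f _ i.1 (y v), z1 f _ i.1 (y v),
    ← w f i.1 _ v.1.2]
  exact (z f _ i.1).trans (congrArg Subtype.val (x f v i.1).symm)

variable (h : Dh.Cvt Q) (r : Dh.RelLoc Q P.dom A) (r' : Dh.RelLoc Q P.dom C)
include h r r'

theorem wdg0 {a b y} (ha : Dh.IsNull a) (hb : Dh.IsNull b) (hab : mdot a b = 1)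
    (i : Dh.In (Dh.Wdg a b y) f) (j : Dh.In (Dh.Wdg b a y) g) (x : ∀ v, (X v : H) = A f v)
    (z : ∀ v, (Y v : H) = C g v) :
    Commute X (ku (-1) (gd P) * Y * ku 1 (gd P)) := by
  obtain ⟨D, c, κ, k, d⟩ := xd0 e h
  obtain ⟨X', p⟩ := ex_ad e r i.1 x
  obtain ⟨Y', q⟩ := ex_ad e r' j.1 z
  have l : ∀ {A f} {X : Module.End ℂ P.dom}, Dh.RelLoc Q P.dom A → Dh.In (Dh.Wdg a b y) f →
      (∀ v, (X v : H) = A f v) →
      ∀ Y ∈ Le Q P (Dh.Wdg b a y), Commute X (ku (-1) (gd P) * Y * ku 1 (gd P)) :=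
    fun r i x Y m => by simpa only [neg_neg] using kl e r i.1 x (fun g j =>
      P352X.Ap.sep_wdg ha hb i.2.2 j.2.2) m (ε := -1) (by norm_num)
  refine d.com ha hb hab (fun X ⟨_, _, _, _, _, b, _, _, _, i, x⟩ => l (rel_of e b) i x) p (l r i x)
    ((d.ad.mul q).mul d.ad.symm) fun Z m => ?_
  have := congrArg (ku (-1) (gd P) * · * ku 1 (gd P)) (kl e r' j.1 z (fun g i =>
    P352X.Ap.sep_wdg hb ha j.2.2 i.2.2) m (one_mul 1)).eq
  have u : ku (-1) (gd P) * ku 1 (gd P) = 1 := by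
    simpa using ku_ev gd2 (e := -1) (by norm_num) (Commute.one_left (gd P)).eq
  have u' : ∀ x, ku (-1) (gd P) * (ku 1 (gd P) * x) = x := fun x => by rw [← mul_assoc, u, one_mul]
  simpa only [Commute, SemiconjBy, mul_assoc, u, u', mul_one] using this

/-- **relative locality is transitive** -/
theorem rel_loc0 (t : IsTest f) (t' : IsTest g) (s : Sep f g) {v} (m : v ∈ P.dom) :
    (Dh.Par K P.dom 1 A → A f (C g v) = C g (A f v)) ∧
      (Dh.Par K P.dom (-1) A → Dh.Par K P.dom (-1) C → A f (C g v) = -C g (A f v)) := by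
  have p : ∀ {c A f} {X : Module.End ℂ P.dom}, IsTest f → Dh.Par K P.dom c A → (∀ v, (X v : H) = A f v) →
      X * gd P = c • (gd P * X) := fun {c A f X} t p x => LinearMap.ext fun v =>
    Subtype.ext ((x _).trans ((p.1 f t v v.2).trans (congrArg (c • K.Γ ·) (x v).symm)))
  refine ⟨fun q => (glob e r r' m (fun a b y f g ha hb hab i j => ?_) t t' s).trans (one_smul ℂ _),
    fun q q' => (glob e r r' m (fun a b y f g ha hb hab i j => ?_) t t' s).trans
      (neg_one_smul ℂ _)⟩ <;>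
  obtain ⟨X, x⟩ := ex_end r i.1 <;> obtain ⟨Y, z⟩ := ex_end r' j.1 <;>
  have k := wdg0 e h r r' ha hb hab i j x z <;>
  rw [← z ⟨v, m⟩, ← x ⟨v, m⟩, ← z, ← x, ← Submodule.coe_smul] <;> refine congrArg _ ?_
  · have c : ∀ ε, Commute X (ku ε (gd P)) := fun ε => ((Commute.one_right X).smul_right _).add_right
      (Commute.smul_right ((p i.1 q x).trans (one_smul _ _)) _)
    have u : ku 1 (gd P) * ku (-1) (gd P) = 1 := by
      simpa using ku_ev gd2 (one_mul 1) (Commute.one_left (gd P)).eq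
    have := ((c 1).mul_right k).mul_right (c (-1))
    rw [← mul_assoc, ← mul_assoc, u, one_mul, mul_assoc, u, mul_one] at this
    exact (DFunLike.congr_fun this.eq _).trans (one_smul _ _).symm
  have a := ngs (p i.1 q x)
  have b := ngs (p j.1 q' z)
  have c := ku_od gd2 (e := -1) (by norm_num) b
  rw [neg_neg] at c
  have d := congrArg (· * gd P) (smul_right_injective _ (mul_ne_zero (neg_ne_zero.2 one_ne_zero)
    Complex.I_ne_zero) ((mul_smul_comm _ _ _).symm.trans ((c ▸ k).eq.trans (smul_mul_assoc _ _ _))))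
  exact (DFunLike.congr_fun (rg2 gd2 a d) _).trans (neg_one_smul ℂ _).symm

end Vale.Agent.N352.Bo

end
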