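import Vale.Agent.N352.V5.Dl

/-!
# N352, block V5: the charges generate the Poincare transformations
-/

set_option linter.all false

open Filter Topology

namespace Vale.Agent.N352.V5

open P352 P352.GF P352R P352R.P P352X F K
open P352.H746 (Crv vf)
open UniformSpace (Completion)
open Complex (I)

noncomputable section

universe u

variable {D : Type u} [NormedAddCommGroup D] [InnerProductSpace ℂ D] {Q : Theory D} {X : V → V}
  {T : Ix → Ix → Fld D} {G : D → D} {A : (V → V) → D → D}

open F.Pg in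
/-- the charges of the stress tensor are the generators -/
theorem pch_of0 (g : P.Gr Q G) (a : Der0 Q A) (m : P.MfA Q) (hT : ∀ m n, Q.bose (T m n)) (h : Dn.PGen Q T) :
    P.PCh Q T A := by
  intro F X B f v z hF hX hB hf hc
  obtain ⟨y, w, hw, e⟩ := id hX
  obtain ⟨L, L0, hL, dL⟩ := H746.exists_lor hw
  have K : Crv (fun _ => 1) L (fun e => e • y) w 0 y :=
    ⟨rfl, L0, zero_smul _ _, fun _ => one_pos, hL, hasDerivAt_const _ _, dL, fun n => by
      simpa using hasDerivAt_mul_const (x := (0 : ℝ)) (y n)⟩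
  have d := a.crv K e
  refine tendsto_const_nhds.congr' ((lift K d g (dens_cur hT hX) (h L _ X L0 K.a0 hL hX
    (K.dX e)) (fun C g' c k => ?_) hF hB ⟨hf, hc, Set.subset_univ _⟩).mono fun r k =>
      congrArg _ (k v).symm)
  obtain ⟨n, E, a', b⟩ := Br.mfa.1 m C c
  choose k' Φ μ p q using a'
  refine sm_of (ι := Σ i, Option (Fin (k' i).n))
    (fun i => I * i.2.elim 1 fun b => CA.G.sg (k' i.1) w b (μ i.1))
    (C := fun i => Φ i.1 (i.2.getD (μ i.1))) (g := fun i => i.2.elim (vf X g') fun _ => g')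
    (fun ⟨i, o⟩ => ⟨(p i).1 _, by cases o; exacts [in_vf hX k, k]⟩) fun v => ?_
  rw [b _ _ k.1, b _ _ k.1, show A X _ = lin K d _ from rfl, map_sum, ← Finset.sum_sub_distrib,
    Fintype.sum_sigma]
  refine Finset.sum_congr rfl fun i _ => ?_
  rw [q, Fintype.sum_option]
  refine (gen_mf0 a (Fss.G.m1_gr (Br.gr.1 g)) hw e (p i) _ k.1 v).trans ?_
  simp only [Option.elim, Option.getD, mul_one, mul_smul, smul_add, Finset.smul_sum, add_comm]

open F.Pg in
/-- the charge of the dilation current is the generator -/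
theorem vc_of0 (g : GI.Ge Q G A) (m : Dl Q) (hT : ∀ m n, Q.bose (T m n)) {J : Ix → Fld D}
    (h : Dn.Vir Q T J) : U.Vr.Vc Q T A (J o) := by
  intro F B f v z hF hB hf hc
  have e : ∀ (z : V) n, id z n = (0 : V) n + 1 * z n + ∑ m, z m * (0 : ℝ) := by simp
  have d := Tn.Der.crv g.der dil_crv e
  refine tendsto_const_nhds.congr' ((lift dil_crv d g.toGr ((dens_cur hT dil_sim).sub
    (dens_one (h.bose o))) h.gen (fun C g' c k => ?_) hF hB ⟨hf, hc, Set.subset_univ _⟩).mono
      fun r k => congrArg _ (k v).symm)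
  obtain ⟨E, C', a⟩ := m C c
  obtain ⟨n, z, B, p, q⟩ := a.cb
  refine sm_of (ι := Option (Fin n)) (fun i => I * i.elim 1 z) (C := fun i => i.elim C B)
    (g := fun i => i.elim (vf id g') fun _ => g') (fun o => by
      cases o
      exacts [⟨c, in_vf dil_sim k⟩, ⟨p _, k⟩]) fun v => ?_
  rw [Fintype.sum_option, a.comm c d k.1 v, q _ _ k.1]
  simp only [Option.elim, mul_one, mul_smul, smul_add, Finset.smul_sum]

theorem cova0 (g : P.Gr Q G) (m : P.MfA Q) (l : Dl Q) (s : ℝ) (L : Ix → V) (a : V) (hs : 0 < s)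
    (hL : IsLor L) : P.Cov Q s L a := by
  have R := Fss.G.m1_gr (Br.gr.1 g)
  exact cov_all hs hL (Lg.sur g hs hL a).denseRange (fun v =>
    (Fss.G.U_dil R hs hL a v).2.symm.trans (u_split R hL a _)) (l.cd R hs)
    (cov_lor hL (Lg.sur g one_pos hL 0).denseRange m)

variable {Γ : Completion D →L[ℂ] Completion D} {N : Set V → VonNeumannAlgebra (Completion D)}
  {E : Submodule ℂ (Completion D)} {P : Theory E} {G' : E → E} {e : Fld D → Fld E}
  {A' : (V → V) → E → E}

theorem gen_ext0 (x : N352.Ext Q Γ N P G' e) (a : Der0 Q A) (a' : Der0 P A')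
    (hX : Dn.IsSim 0 X) {v : E} {w : D} (h : (v : Completion D) = w) :
    (A' X v : Completion D) = (A X w : D) := by
  obtain ⟨L, b, u, y, K, k⟩ := crv_of hX
  have d1 := (E.subtypeL.restrictScalars ℝ).hasFDerivAt.comp_hasDerivAt (0 : ℝ) (a'.crv K k v)
  have d2 := ((Completion.toComplL (𝕜 := ℂ) (E := D)).restrictScalars ℝ).hasFDerivAt.comp_hasDerivAt
    (0 : ℝ) (a.crv K k w)
  have := d1.unique (d2.congr_of_eventuallyEq (Eventually.of_forall fun s =>
    (x.U _ _ _ v one_pos (K.lor s)).trans (by rw [h]; exact ue_coe one_pos (K.lor s) _ w)))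
  simp only [ContinuousLinearMap.coe_restrictScalars', map_smul] at this
  exact smul_right_injective _ Complex.I_ne_zero this

/-- **the charges of the extension generate the translations and Lorentz transformations** -/
theorem pg_ext0 (x : N352.Ext Q Γ N P G' e) (cy : GI.Cy Q) (a : Der0 Q A) (a' : Der0 P A')
    (hT : ∀ m n, Q.bose (T m n)) (hP : ND.PCh Q T A) {L : Fld E} (g : Gn Q P e L)
    (l : P.IsScalar L 2) {t} (c : Dn.Conf P G' (fun m n => e (T m n)) t) :
    Dn.PGen P fun m n => e (T m n) := by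
  intro M b X L0 a0 hL hX d
  have k := fun v => a' M b X v L0 a0 hL d
  refine gen_of k (smul_right_injective E Complex.I_ne_zero ((k _).unique ?_))
    fun F B f w hF hB hf => ?_
  · simpa only [fun e => P.U_vac _ _ (b e) one_pos (hL e), smul_zero] using
      hasDerivAt_const (0 : ℝ) _
  have s := fun m n => Q.bose_fld _ (hT m n)
  have ag : ∀ {C g} {v : E} {w : D}, Q.fld C → IsTest g → (v : Completion D) = w →
      (e C g v : Completion D) = (C g w : D) := fun p q r =>
    x.agree _ _ _ _ p q (fun S u v => cy S u v ▸ Submodule.mem_top) r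
  obtain ⟨n, C, p, q⟩ := g.2 B hB
  obtain ⟨M', b', u, y, K, e'⟩ := crv_of hX
  have h : ∀ i, Tendsto (fun r => inner ℂ w (Dn.cm (Dn.cur (fun m n => e (T m n)) X) (F r) (C i) f
      P.vac)) atTop (𝓝 (inner ℂ w (A' X (C i f P.vac) - C i f (A' X P.vac)))) := fun i => by
    rcases p i with h | ⟨C', h1, h2⟩
    · rw [h, Tn.gen_cov K (a'.crv K e') e' (B := fun _ : Unit => L) (fun _ => P.bose_fld _ l.1)
        (P.bose_fld _ l.1) (C := fun _ _ => 1) (C' := fun _ => 0) (fun _ => hasDerivAt_const _ _)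
        hf.1 _ (fun g _ => by simp) fun s => by
          simpa using l.2.2 1 _ _ f _ one_pos (K.lor s) hf.1]
      simpa using lim_sc c (fun m n => x.fld _ (s m n)) l hX hF hf P.vac w
    obtain ⟨ρ, hρ⟩ := hf.2.1.isCompact.isBounded.subset_ball 0
    refine tendsto_const_nhds.congr' ?_
    filter_upwards [Tn.fin_ward hT hP hF hX ρ, isTest_cutoff hF] with r z hr
    have cu : ∀ {v : E} {w : D}, (v : Completion D) = w →
        ((Dn.cur (fun m n => e (T m n)) X (F r) v : E) : Completion D) =
          (ND.cur T X (F r) w : D) :=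
      fun h => by
        rw [← Completion.coe_toComplL (𝕜 := ℂ), Dn.cur, ND.cur, map_sum, Submodule.coe_sum]
        exact Finset.sum_congr rfl fun n _ => ag (s o n) (Fss.test_sim0 hX hr n) h
    refine congrArg _ (Subtype.ext ?_)
    simp only [Dn.cm, h2 _ _ hf.1, Submodule.coe_sub]
    rw [gen_ext0 x a a' hX (ag h1 hf.1 x.vac), ag h1 hf.1 (gen_ext0 x a a' hX x.vac),
      cu (ag h1 hf.1 x.vac), ag h1 hf.1 (cu x.vac), ← Completion.coe_sub, ← Completion.coe_sub,
      z C' f _ h1 ⟨hf.1, hf.2.1, hρ⟩]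
  have h := tendsto_finsetSum Finset.univ fun i _ => h i
  have i : ∀ z : Fin n → E, ∑ i, inner ℂ w (z i) = inner ℂ w (∑ i, z i) := fun z =>
    (inner_sum (𝕜 := ℂ) (E := E) Finset.univ z w).symm
  simp only [i] at h
  rw [Finset.sum_sub_distrib, ← q, show ∑ i, A' X (C i f P.vac) = A' X (B f P.vac) by
    rw [q]; exact (map_sum (Pg.lin K (a'.crv K e')) _ _).symm] at h
  refine h.congr' ((isTest_cutoff hF).mono fun r hr => ?_)
  have := ((dens_cur (fun m n => x.bos _ (hT m n)) hX).lp (G := G') hr).lin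
  simp only [Dn.cm, cm, q, Finset.sum_sub_distrib]
  exact congrArg (inner ℂ w <| · - _) (map_sum (this.mk' _) _ _).symm

/-- **the charges generate the translations and Lorentz transformations in every enlargement** -/
theorem pg_enl0 {P R : Theory D} {S t : Ix → Ix → Fld D} (a : Der0 P A)
    (hP : ND.PCh P S A) (hS : ∀ m n, P.bose (S m n)) (u : Dn.IsEnl P R) (c : Dn.Conf R G S t) :
    Dn.PGen R S := by
  intro M b X L0 a0 hL hX d
  have k := fun v => a M b X v L0 a0 hL d
  obtain ⟨M', b', w, y, K, e'⟩ := crv_of hX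
  have k' := a.crv K e'
  have h0 : A X R.vac = 0 := u.1 ▸ Pg.vac K k'
  refine gen_of (u.2 ▸ k) h0 fun F B f z hF hB hf => tendsto_const_nhds.congr' ?_
  have s := fun m n => R.bose_fld _ (u.4 _ (hS m n))
  obtain ⟨r0, -, cs⟩ := (dens_cur (fun m n => u.4 _ (hS m n)) hX).const hB hf hF
  have o : ∀ v, inner ℂ P.vac (A X v) = 0 := fun v =>
    (mul_eq_zero.1 ((Pg.der K k' P.vac v).unique ((hasDerivAt_const (0 : ℝ) _).congr_of_eventuallyEq
      (.of_forall fun e => (congrArg (inner ℂ · _) (P.U_vac _ _ (b' e) (K.sp e) (K.lor e)).symm).trans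
        (P.U_inner _ _ _ _ _ (K.sp e) (K.lor e)))))).resolve_left Complex.I_ne_zero
  have he := cur_herm (X := X) c.impr.herm hX hF
  have li : ∀ᶠ r in atTop, IsLinearMap ℂ fun v => Dn.cur t X (F r) v - A X v := he.mono fun r h =>
    ⟨fun v w => by
      rw [show A X (v + w) = _ from (Pg.lin K k').map_add v w, show Dn.cur t X (F r) (v + w) =
        Dn.cur t X (F r) v + Dn.cur t X (F r) w from ext_inner_right ℂ fun z => by
          simp only [h, inner_add_left]]
      exact add_sub_add_comm _ _ _ _, fun s v => by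
      rw [show A X (s • v) = _ from (Pg.lin K k').map_smul s v, show Dn.cur t X (F r) (s • v) =
        s • Dn.cur t X (F r) v from ext_inner_right ℂ fun z => by
          simp only [h, inner_smul_left], smul_sub]
      rfl⟩
  have e : cm (cur S X) (F r0) B f R.vac - A X (B f R.vac) = 0 := dal_zero (P := P) fun Z Z' p => by
    obtain ⟨B', b1, b2⟩ := R.adj B hB
    have q := c.cfs.ward (fun n x => X x n) _ _ (by
      obtain ⟨c, w, p, q⟩ := hX
      exact ⟨c, 0, 0, w, p, fun n x => by simp [q, GF.mdot]⟩) (dal_rc u hB b1 b2 hf p) F hF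
    refine tendsto_nhds_unique (tendsto_const_nhds.congr' ?_) q
    have l := fun v w => (show Z (v - w) = Z v - Z w from ext_inner_right ℂ fun z => by
      simp only [dal_adj p, inner_sub_left])
    have cm : ∀ C g, P.fld C → Dn.In Set.univ g → ∀ᶠ r in atTop, ∀ v,
        Dn.cur t X (F r) (C g v) - A X (C g v) = C g (Dn.cur t X (F r) v - A X v) := fun C g x i => by
      obtain ⟨ρ, hρ⟩ := i.2.1.isCompact.isBounded.subset_ball 0
      filter_upwards [Tn.fin_ward hS hP hF hX ρ, cur_same c.impr s hX hF (u.3 _ x) i] with r h1 h2 v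
      have := (h2 v).trans (h1 C g v x ⟨i.1, i.2.1, hρ⟩)
      rw [show ∀ v w, C g (v - w) = C g v - C g w from (fm x i.1).map_sub, sub_eq_sub_iff_sub_eq_sub]
      exact this
    filter_upwards [dal_comm li cm p, he, eventually_ge_atTop r0,
      cur_same c.impr s hX hF hB hf] with r h1 h2 h3 h4
    have h5 := h1 (B f R.vac)
    have h6 : ∀ v, inner ℂ R.vac (Z (B f v)) = inner ℂ (B' (bar f) (Z' R.vac)) v := fun v => by
      rw [← inner_conj_symm, dal_adj p, b2 _ _ _ hf.1, inner_conj_symm]
    rw [cs r0 r le_rfl h3, show P352R.P.cm (cur S X) (F r) B f R.vac = _ from (h4 _).symm, Dn.cm,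
      sub_right_comm, l, ← h5, inner_sub_right, inner_sub_right, o, sub_zero, ← u.1, ← h2,
      Completion.inner_coe, Completion.inner_coe, h6 (Dn.cur t X (F r) R.vac)]
  filter_upwards [eventually_ge_atTop r0] with r hr
  rw [h0, show B f 0 = 0 from (fm hB hf.1).map_zero, sub_zero, ← sub_eq_zero.1 e]
  exact congrArg _ (cs r0 r le_rfl hr _)

end

end Vale.Agent.N352.V5
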