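import Vale.Agent.N352.V5.Hl

/-!
# N352, block V5: the theorem
-/

set_option linter.all false

open Filter Topology

namespace Vale.Agent.N352.Dh

variable {H : Type*} [NormedAddCommGroup H] [InnerProductSpace ℂ H] [CompleteSpace H] {K : Frame H}

/-- **The weakest hypotheses.** The stress tensor has finite scaling support. For the other fields
this is not needed if they obey polynomial energy bounds. -/
structure Hyw (Q : Theory K) (T : Ix → Ix → Fld H) : Prop where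
  stress : Stress Q T
  poincare : PGen Q T
  scale : (∃ J, Vir Q T J) ∨ IVac K
  fields : Cvt Q
  finite : ∀ m n, Scl Q (T m n)
  bounds : EBd Q ∨ Fin' Q
  regular : Rgl Q T

variable (H) in
/-- **The theorem under the weakest hypotheses**, for the Hilbert space `H`. -/
structure Thw : Prop where
  inv : ∀ (K : Frame H) (Q : Theory K) T, Hyw Q T → ∃ R t, CInv Q R T t ∧
    ∃ P S, Xtn Q P ∧ (∀ v, v ∈ R.dom ↔ Cyc P v) ∧ P.dom = R.dom ∧ Conf P S t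
  conf : ∀ (K : Frame H) (Q : Theory K) T, Hyw Q T → Mxq Q → ∃ t, Conf Q T t
  weak : ∀ (K : Frame H) (Q : Theory K), Fin' Q → Cvt Q
  hyp : ∀ (K : Frame H) (Q : Theory K) T, Hyq Q T → Hyw Q T
  der : ∀ (K : Frame H) (Q : Theory K) m v, Cvt Q → Cyc Q v → Cyc Q (Dv K m v) ∧
    HasDerivAt (fun t : ℝ => K.U 1 one (bas m t) v) (Dv K m v) 0

end Vale.Agent.N352.Dh

namespace Vale.Agent.N352.H

open P352.GF F P352R
open UniformSpace (Completion)

noncomputable section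

universe u

section dn

variable {H : Type*} [NormedAddCommGroup H] [InnerProductSpace ℂ H] [CompleteSpace H]
  {K : Dh.Frame H} {S : Dh.Theory K}

/-- the similitudes are linear -/
def ul (K : Dh.Frame H) {s : ℝ} {L} (hs : 0 < s) (hL : IsLor L) (a : V) : H →ₗ[ℂ] H where
  toFun := K.U s L a
  map_add' v w := sub_eq_zero.1 ((inner_self_eq_zero (𝕜 := ℂ)).1 (by
    simp only [inner_sub_left, inner_sub_right, inner_add_left, inner_add_right,
      K.unitary s L a _ _ hs hL]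
    ring))
  map_smul' c v := sub_eq_zero.1 ((inner_self_eq_zero (𝕜 := ℂ)).1 (by
    simp only [inner_sub_left, inner_sub_right, inner_smul_left, inner_smul_right,
      K.unitary s L a _ _ hs hL, RingHom.id_apply]
    ring))

theorem cvt_of (h : Dh.Fin' S) : Dh.Cvt S := fun A a => by
  obtain ⟨F, B, p, q⟩ := (h A a).2
  have dz : ∀ p : ℂ × ℕ, ∃ z, HasDerivAt (fun e : ℝ => ((Real.exp e : ℝ) : ℂ) ^ (4 - p.1) *
      (Real.log (Real.exp e) : ℂ) ^ p.2) z 0 := fun p => by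
    simp only [Real.log_exp]
    simp only [Complex.ofReal_exp]
    exact ⟨_, (((Complex.hasDerivAt_exp _).cpow_const (by simp)).fun_mul
      (hasDerivAt_pow _ _)).comp_ofReal⟩
  choose z hz using dz
  have m : ∀ c : ℂ × ℕ → ℂ, ∑ i ∈ F, c i • B i ∈ Dh.Sp {X | S.fld X} := fun c =>
    Submodule.sum_mem _ fun i _ => Submodule.smul_mem _ _ (Submodule.subset_span (p i))
  refine ⟨(h A a).1, _, _, fun e => ⟨m fun i => ((Real.exp e : ℝ) : ℂ) ^ (4 - i.1) *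
    (Real.log (Real.exp e) : ℂ) ^ i.2, m z⟩, fun e f t v n => ?_, fun f t v n => ?_⟩
  · refine (q _ f (Real.exp_pos e) t v n).trans (Eq.symm ?_)
    simp only [Finset.sum_apply, Pi.smul_apply]
    exact (map_sum (ul K (Real.exp_pos e) lor1 0) _ _).trans
      (Finset.sum_congr rfl fun i _ => map_smul _ _ _)
  · simp only [Finset.sum_apply, Pi.smul_apply]
    exact HasDerivAt.fun_sum fun i _ => (hz i).smul_const _

/-- the hypotheses on the domain -/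
theorem hyw_dn {T} (h : Dh.Hyw S T) (eb : Dh.EBd S) : ∃ Q G T' Γ, ∃ R : Rl S Q S.dom.subtypeₗᵢ G,
    (iso _ R.dr).conjStarAlgEquiv Γ = K.Γ ∧
      (∀ m n, Eqv S.dom.subtypeₗᵢ (T m n) (T' m n)) ∧ V5.Hw Q G T' Γ := by
  obtain ⟨Q, G, R0⟩ := ex_rl S
  have R := th_rl R0.toLk
  choose T' a x b using fun m n => R.rep (h.1.1 m n).1
  obtain ⟨Γ, g⟩ := p_sur (iso _ R.dr).conjStarAlgEquiv K.Γ
  have c := iso_coe _ R.dr
  have d := R.dd0 h.4
  have n : ∃ N', Dn.Rgl (th R0.toLk) G T' Γ N' := by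
    rcases h.7 with ⟨N, p, q⟩ | ⟨p, q⟩ | ⟨P, p, q⟩
    · obtain ⟨N', n⟩ := ex_dn (iso _ R.dr) N
      exact ⟨N', .net ⟨Z.net.1 ((R.net c n g).1 p), q.imp (fun k => Z.aff.1 ((R.aff c n).1 k))
        fun k => Z.rel.1 ((R.rel c n g).1 k)⟩⟩
    · exact ⟨E.Mn.N1 _, .energy ⟨(R.ebd d).1 p, q.imp (R.fbt d x).1 (R.sl c x).1⟩⟩
    have k : Lk K P.dom S.dom.subtypeₗᵢ Q.vac G Q.U := by
      have := R0.toLk
      exact ⟨fun v => p.1.ge v.2, fun w m => this.2 w (p.1.le m), this.3, this.4, this.5⟩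
    have r := th_rl k
    exact ⟨E.Mn.N1 _, .sub (th k) ⟨⟨rfl, rfl, fun B => Exists.imp fun A s => ⟨p.2 A s.1, s.2⟩,
      fun B => Exists.imp fun A s => ⟨⟨p.2 A s.1.1, p.1 ▸ s.1.2⟩, s.2⟩⟩, Z.gr.1 r.gr,
      .inr ((r.fin.1 p.3).imp Z.mfa.1 Z.fsl.1), q.imp r.ana.1 (And.imp (R.ebd d).1 (R.leb d r).1)⟩⟩
  refine ⟨_, G, T', Γ, R, g, x, Z.gr.1 R.gr, R.even, (R.cg c).1 g,
    Z.stress.1 ((R.stress x).1 ⟨h.1, fun m n => b m n (h.1.1 m n)⟩).1, Z.pgen.1 ((R.pgen x).1 h.2),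
    h.3.imp (fun ⟨J, v⟩ => ?_) (R.ivac c), R.mfa0 h.4, R.dl h.4,
    fun m n => R.scl0 (x m n) (h.5 m n), (R.ebd d).1 eb, n⟩
  choose J' a' y b' using fun m => R.rep (v.1 m).1
  exact ⟨J', Z.vir.1 ((R.vir x y).1 ⟨v, fun m => b' m (v.1 m)⟩).1⟩

variable {D : Type u} [NormedAddCommGroup D] [InnerProductSpace ℂ D] {Q : Theory D}
  {φ : D →ₗᵢ[ℂ] H} {G : D → D} {Γ : Completion D →L[ℂ] Completion D}
  (R : Rl S Q φ G) {j : Completion D ≃ₗᵢ[ℂ] H} (c : ∀ v : D, j v = φ v)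
  (g : j.conjStarAlgEquiv Γ = K.Γ)
include R c g

theorem Rl.mxq_dn0 (r : Dh.Mxq S) : Dn.Max Q Γ Q .id := ⟨fun _ _ _ P k G' e L x hL => by
  obtain ⟨S', R', y, z, -⟩ := R.xt_up c g x
  have l := R'.scalar_up (up_eqv _ L) (z _ (P.bose_fld _ hL.1)) hL
  obtain ⟨A, s, w⟩ := r S' _ y l
  obtain ⟨B, b, a⟩ := R.dn A s
  obtain ⟨C, C', p, q, o⟩ := R.gr.split B b
  refine ⟨C, p, fun f t => Eq.trans ?_ (congrFun (Completion.map_id (α := D)) _).symm⟩
  have u : φ (C f Q.vac + C' f Q.vac) = N352.H.up (j.toLinearIsometry.comp k) L f K.Ω := by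
    rw [← o f _ t, ← a f _ t, ← R.vac, w f t]
  have v := sc_even l t
  have q' := q.2 f Q.vac t
  rw [← u, R.gam, g_add R.gr, ← R.gr.3 C f _ p t, R.even] at v
  rw [R.even, ← neg_eq_iff_eq_neg] at q'
  have z : (2 : ℂ) • C' f Q.vac = 0 := by
    rw [two_smul, add_eq_zero_iff_neg_eq, q']
    exact add_left_cancel (φ.injective v)
  rw [(smul_eq_zero.1 z).resolve_left two_ne_zero, add_zero, R'.vac, up_eq, ← c] at u
  exact j.injective u⟩

end dn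

section up

variable {H : Type u} [NormedAddCommGroup H] [InnerProductSpace ℂ H] [CompleteSpace H]
  {K : Dh.Frame H} {S : Dh.Theory K} {T : Ix → Ix → Fld H} {Q : Theory S.dom} {G T' Γ}
  (R : Rl S Q S.dom.subtypeₗᵢ G) (g : (iso _ R.dr).conjStarAlgEquiv Γ = K.Γ)
  (x : ∀ m n, Eqv S.dom.subtypeₗᵢ (T m n) (T' m n)) (y : V5.Hw Q G T' Γ)
include R g x y

/-- **the conformal extension** -/
theorem ext10 : ∃ A, Dh.Stress S A ∧ Dh.Same S T A ∧
    ∃ (P : Dh.Theory K) (S' t : Ix → Ix → Fld H), (∀ B, S.fld B → ∃ C, P.fld C ∧ Dh.Agr S B C) ∧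
      (∀ m n, Dh.Agr S (A m n) (S' m n)) ∧ (∀ v ∈ P.dom, Dh.Cyc P v) ∧ ∀ R : Dh.Theory K, R.dom = P.dom → (∀ A, P.fld A → R.fld A) →
        Dh.Conf R S' t ∧ Dh.PGen R S' := by
  obtain ⟨s, a, b, E, _, _, P, k, G', e, t, c, d, p, z⟩ := V5.ext9 y
  obtain ⟨S', R', q, f, w, v⟩ := R.ext_up0 (iso_coe _ R.dr) g c
  choose A o i using fun m n => R.up _ (Q.bose_fld _ (a.1 m n))
  have j := fun m n => up_eqv ((iso _ R.dr).toLinearIsometry.comp k) (e (s m n))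
  have d' := fun m n => P.bose_fld _ (d.1 m n)
  exact ⟨A, ((R.stress i).2 ⟨Z.st a, o⟩).1, (R.same x i).2 b, S', _, fun m n => up _ (t m n), q,
    fun m n => w _ _ (Q.bose_fld _ (a.1 m n)) (i m n),
    R'.all.2 fun v => R'.cyc_up fun M a b => p M a b ▸ Submodule.mem_top,
    fun R a b => have ⟨_, r, x⟩ := v R a b
      have z := z _ ⟨x.1, x.2, x.3, x.4⟩ (Z.gr.1 r.gr)
      ⟨r.conf_up (iso_coe _ r.dr) j (fun _ _ => up_eqv _ _) (fun m n => x.3 _ (d' m n)) (Z.cf z.1),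
        (r.pgen j).2 (Z.pgen.2 z.2)⟩⟩

/-- **the Borchers class is conformal** -/
theorem cinv0 (f : Dh.Cvt S) : ∃ R t, Dh.CInv S R T t ∧ ∃ (P : Dh.Theory K) (U : _),
    Dh.Xtn S P ∧ (∀ v, v ∈ R.dom ↔ Dh.Cyc P v) ∧ P.dom = R.dom ∧ Dh.Conf P U t ∧
      ∀ A, P.fld A → R.fld A := by
  obtain ⟨A, a, s, P, S', t, e, g, c, z⟩ := ext10 R g x y
  obtain ⟨R, d, k, i⟩ := bor_of e fun _ _ _ _ r r' t t' s _ m => Bo.rel_loc0 e f r r' t t' s m
  have ⟨x, y⟩ := z R d i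
  exact ⟨R, t, ⟨k, stress_bor x k, x.poincare y, chg s (fun m n => (a.1 m n).1) g x.same
    (fun v c => d ▸ cyc_dom e c), _, x⟩, P, S', e,
    fun v => ⟨fun m => c v (d ▸ m), fun m => d ▸ cyc_in m⟩, d.symm, (z P rfl fun _ p => p).1, i⟩

end up

/-- **the theorem** -/
theorem thw (H : Type u) [NormedAddCommGroup H] [InnerProductSpace ℂ H] [CompleteSpace H] :
    Dh.Thw H where
  inv K S T h := h.bounds.elim (fun e =>
    have ⟨_, _, _, _, R, g, x, y⟩ := hyw_dn h e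
    have ⟨R, t, a, P, U, b, c, d, e, _⟩ := cinv0 R g x y h.fields
    ⟨R, t, a, P, U, b, c, d, e⟩) fun f =>
    have ⟨R, t, a, P, U, b, _, c, d, e, _⟩ := (thr H).inv K S T ⟨h.1, h.2, h.3, f, h.7⟩
    ⟨R, t, a, P, U, b, c, d, e⟩
  conf K S T h r := by
    refine h.bounds.elim (fun e => ?_) fun f => (thr H).conf K S T ⟨h.1, h.2, h.3, f, h.7⟩ r
    obtain ⟨Q, G, T', Γ, R, g, x, y⟩ := hyw_dn h e
    have c := iso_coe _ R.dr
    obtain ⟨t, a⟩ := V5.conf9 y (R.mxq_dn0 c g r)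
    exact ⟨_, R.conf_up c x (fun _ _ => up_eqv _ _) (fun m n => Q.bose_fld _ (y.4.1 m n)) (Z.cf a)⟩
  weak _ _ := cvt_of
  hyp _ _ _ h := ⟨h.1, h.2, h.3, cvt_of h.4, fun m n => (h.4 _ (h.1.1 m n).1).2, .inr h.4, h.5⟩
  der K S m v f c := by
    obtain ⟨Q, G, R⟩ := ex_rl S
    obtain ⟨v, rfl, c'⟩ := R.cyc_dn c
    have d := R.dd0 f
    rw [R.dv d m c']
    exact ⟨R.cyc_up (d m v c').1, R.der d m c'⟩

end

end Vale.Agent.N352.H
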