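import Vale.Agent.N352.V5.Thm
import Vale.Agent.N352.Y.Tq

/-!
# N352, block V5: the theorem, with the alternatives in the hypotheses
-/

set_option linter.all false

namespace Vale.Agent.N352.H

open P352.GF F

universe u

variable {H : Type u} [NormedAddCommGroup H] [InnerProductSpace ℂ H] [CompleteSpace H]
  {K : Dh.Frame H} {S : Dh.Theory K} {T : Ix → Ix → Fld H}

theorem hyw_of (h : Dh.Hyx S T) (r : Dh.Rgl S T)
    (e : Dh.EBd S ∧ Dh.Cvt S ∧ ∀ m n, Dh.Scl S (T m n)) : Dh.Hyw S T :=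
  ⟨h.1, h.2, h.3.imp_right fun k => k.elim id (uni K), e.2.1, e.2.2, .inl e.1, r⟩

variable (H) in
/-- **the theorem** -/
theorem thx : Dh.Thx H where
  inv K S T h r := by
    by_cases f : Dh.Fin' S ∨ Dh.Cnt S
    · obtain ⟨R, t, c, P, a, b, d, e, g⟩ := (thq H).inv K S T ⟨h.1, h.2, h.3, f⟩ r
      exact ⟨R, t, c, P, a, d, e, fun A p => (g A p).1, fun _ => ⟨b, fun A p => (g A p).2⟩⟩
    · have e := h.4.resolve_left f
      obtain ⟨_, _, _, _, R, g, x, y⟩ := hyw_dn (hyw_of h r e) e.1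
      obtain ⟨R, t, a, P, U, b, c, d, -, i⟩ := cinv0 R g x y e.2.1
      exact ⟨R, t, a, P, b, c, d, i, fun k => (f k).elim⟩
  conf K S T h r := by
    by_cases f : Dh.Fin' S ∨ Dh.Cnt S
    · exact (thq H).conf K S T ⟨h.1, h.2, h.3, f⟩ (r.imp_right And.right)
    · obtain ⟨r, m⟩ := r.resolve_right fun k => f k.1
      exact (thw H).conf K S T (hyw_of h r (h.4.resolve_left f)) m

/-- **the hypotheses can be satisfied** -/
theorem wix : ∃ (H : Type) (_ : NormedAddCommGroup H) (_ : InnerProductSpace ℂ H)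
    (_ : CompleteSpace H), Dh.Wix H := by
  obtain ⟨H, _, _, _, K, Q, R, T, J, N, h, v, i, u, f, c, n, e, s, m, x, z⟩ := wiq
  exact ⟨H, _, _, _, K, Q, R, T, J, N, ⟨h.1, h.2, h.3, .inl h.4⟩, v, i, u, f, c,
    ⟨cvt_of f, fun m n => (f _ (h.1.1 m n).1).2⟩, n, e, s, m, x, z⟩

end Vale.Agent.N352.H
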